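/-
R166 (row 166 = S0349, Heisenberg ferromagnet), CONDITIONAL chain (B27), architect helper769.
Abs/Defs: abstract Banach-algebra vocabulary of the chain.
  ad K B      = K B - B K
  adPow K k B = (ad K)^k B
  conjExp K z B = exp(i z K) B exp(-i z K)      (complex time z)
`finiteDynamics d l Lam t A` of Def_0296 is `conjExp (hamiltonian d l Lam) t A` by `rfl`.
No sorry in this file.
-/
import Mathlib

set_option autoImplicit false
set_option linter.unusedSectionVars false

namespace Claimed.Agent.R166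

noncomputable section

variable {𝔄 : Type*} [NormedRing 𝔄] [NormedAlgebra ℂ 𝔄]

/-- commutator `K B - B K`. -/
def ad (K B : 𝔄) : 𝔄 := K * B - B * K

/-- iterated commutator. -/
def adPow (K : 𝔄) (k : ℕ) (B : 𝔄) : 𝔄 := (ad K)^[k] B

/-- `exp(i z K) B exp(-i z K)`. -/
def conjExp (K : 𝔄) (z : ℂ) (B : 𝔄) : 𝔄 :=
  NormedSpace.exp ((Complex.I * z) • K) * B * NormedSpace.exp ((-(Complex.I * z)) • K)

@[simp] theorem adPow_zero (K B : 𝔄) : adPow K 0 B = B := rfl

theorem adPow_succ (K : 𝔄) (k : ℕ) (B : 𝔄) : adPow K (k + 1) B = ad K (adPow K k B) := by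
  simp only [adPow, Function.iterate_succ', Function.comp]

theorem adPow_succ' (K : 𝔄) (k : ℕ) (B : 𝔄) : adPow K (k + 1) B = adPow K k (ad K B) := by
  simp only [adPow, Function.iterate_succ, Function.comp]

theorem ad_add (K B C : 𝔄) : ad K (B + C) = ad K B + ad K C := by
  simp only [ad, mul_add, add_mul]; abel

theorem ad_sub (K B C : 𝔄) : ad K (B - C) = ad K B - ad K C := by
  simp only [ad, mul_sub, sub_mul]; abel

theorem ad_zero (K : 𝔄) : ad K 0 = 0 := by simp [ad]

theorem ad_smul (K : 𝔄) (c : ℂ) (B : 𝔄) : ad K (c • B) = c • ad K B := by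
  simp only [ad, mul_smul_comm, smul_mul_assoc, smul_sub]

theorem add_ad (K K' B : 𝔄) : ad (K + K') B = ad K B + ad K' B := by
  simp only [ad, mul_add, add_mul]; abel

theorem sub_ad (K K' B : 𝔄) : ad (K - K') B = ad K B - ad K' B := by
  simp only [ad, mul_sub, sub_mul]; abel

theorem smul_ad (c : ℂ) (K B : 𝔄) : ad (c • K) B = c • ad K B := by
  simp only [ad, mul_smul_comm, smul_mul_assoc, smul_sub]

theorem ad_eq_zero_of_commute {K B : 𝔄} (h : K * B = B * K) : ad K B = 0 := by
  simp [ad, h]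

theorem norm_ad_le (K B : 𝔄) : ‖ad K B‖ ≤ 2 * ‖K‖ * ‖B‖ := by
  have h1 := norm_mul_le K B
  have h2 := norm_mul_le B K
  have h3 := norm_sub_le (K * B) (B * K)
  simp only [ad]
  nlinarith

theorem conjExp_add_right (K : 𝔄) (z : ℂ) (B C : 𝔄) :
    conjExp K z (B + C) = conjExp K z B + conjExp K z C := by
  simp only [conjExp, mul_add, add_mul]

theorem conjExp_sub_right (K : 𝔄) (z : ℂ) (B C : 𝔄) :
    conjExp K z (B - C) = conjExp K z B - conjExp K z C := by
  simp only [conjExp, mul_sub, sub_mul]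

theorem conjExp_smul_right (K : 𝔄) (z : ℂ) (c : ℂ) (B : 𝔄) :
    conjExp K z (c • B) = c • conjExp K z B := by
  simp only [conjExp, mul_smul_comm, smul_mul_assoc]

end

end Claimed.Agent.R166
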