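/-
R166 Abs/AdConv (leaf C5).  Iterated commutators with a sequence of Hamiltonians that act "locally" in the same way
(up to a field term h i → 0) converge.
  𝔏 s : increasing family of "local" subspaces (s = radius of a box),  G s, N s : local generator / local field.
  locD G s k B : the limit:  locD G s 0 B = B,  locD G s (k+1) B = ad (G (s+k)) (locD G s k B).
PROOF TEXT.  Induction on k of the conjunction
   (Tendsto (fun i => adPow (K i) k B) l (𝓝 (locD G s k B))) ∧ (∀ᶠ i in l, adPow (K i) k B ∈ 𝔏 (s+k)) ∧ locD G s k B ∈ 𝔏 (s+k).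
 Step: adPow_succ; eventually adPow (K i) (k+1) B = ad (G (s+k)) X_i - h i • ad (N (s+k)) X_i with X_i = adPow (K i) k B → locD ..;
 ad (G _) · and ad (N _) · are continuous (ad K X = K*X - X*K), h i → 0, so the limit is ad (G (s+k)) (locD G s k B) - 0.
 (Tendsto.congr' with the eventual equality.)  Membership: hG, hN, Submodule.sub_mem, smul_mem; s+(k+1) = (s+k)+1.
Helper lemmas: prefix `ac_`.
-/
import Claimed.Agent.R166.Abs.Defs

set_option autoImplicit false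
set_option linter.unusedSectionVars false

namespace Claimed.Agent.R166

open Filter Topology

noncomputable section

variable {𝔄 : Type*} [NormedRing 𝔄] [NormedAlgebra ℂ 𝔄]

/-- the limit of the iterated commutators. -/
def locD (G : ℕ → 𝔄) (s : ℕ) : ℕ → 𝔄 → 𝔄
  | 0, B => B
  | k + 1, B => ad (G (s + k)) (locD G s k B)

theorem ac_tendsto_ad {ι : Type*} {l : Filter ι} (K : 𝔄) (X : ι → 𝔄) (L : 𝔄)
    (hX : Tendsto X l (𝓝 L)) : Tendsto (fun i => ad K (X i)) l (𝓝 (ad K L)) := by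
  unfold ad
  exact (hX.const_mul K).sub (hX.mul_const K)

theorem ac_main {ι : Type*} {l : Filter ι} (K : ι → 𝔄) (h : ι → ℂ)
    (hh : Tendsto h l (𝓝 0)) (𝔏 : ℕ → Submodule ℂ 𝔄) (G N : ℕ → 𝔄)
    (hG : ∀ s, ∀ X ∈ 𝔏 s, ad (G s) X ∈ 𝔏 (s + 1))
    (hN : ∀ s, ∀ X ∈ 𝔏 s, ad (N s) X ∈ 𝔏 (s + 1))
    (hK : ∀ s, ∀ᶠ i in l, ∀ X ∈ 𝔏 s, ad (K i) X = ad (G s) X - h i • ad (N s) X)
    (s : ℕ) (B : 𝔄) (hB : B ∈ 𝔏 s) (k : ℕ) :
    Tendsto (fun i => adPow (K i) k B) l (𝓝 (locD G s k B)) ∧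
      (∀ᶠ i in l, adPow (K i) k B ∈ 𝔏 (s + k)) ∧ locD G s k B ∈ 𝔏 (s + k) := by
  induction k with
  | zero =>
    refine ⟨?_, ?_, ?_⟩
    · simp only [adPow_zero, locD]; exact tendsto_const_nhds
    · simp only [adPow_zero, Nat.add_zero]; exact Eventually.of_forall fun _ => hB
    · simpa [locD] using hB
  | succ k ih =>
    obtain ⟨h1, h2, h3⟩ := ih
    have heq : ∀ᶠ i in l, adPow (K i) (k + 1) B =
        ad (G (s + k)) (adPow (K i) k B) - h i • ad (N (s + k)) (adPow (K i) k B) := by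
      filter_upwards [h2, hK (s + k)] with i hi hKi
      rw [adPow_succ]
      exact hKi _ hi
    refine ⟨?_, ?_, ?_⟩
    · have hlim : Tendsto (fun i => ad (G (s + k)) (adPow (K i) k B) - h i • ad (N (s + k)) (adPow (K i) k B)) l
          (𝓝 (ad (G (s + k)) (locD G s k B) - (0 : ℂ) • ad (N (s + k)) (locD G s k B))) :=
        (ac_tendsto_ad _ _ _ h1).sub (hh.smul (ac_tendsto_ad _ _ _ h1))
      rw [zero_smul, sub_zero] at hlim
      have : locD G s (k + 1) B = ad (G (s + k)) (locD G s k B) := rfl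
      rw [this]
      exact hlim.congr' (heq.mono fun i hi => hi.symm)
    · filter_upwards [h2, heq] with i hi he
      rw [he]
      have e : s + (k + 1) = (s + k) + 1 := by omega
      rw [e]
      exact Submodule.sub_mem _ (hG _ _ hi) (Submodule.smul_mem _ _ (hN _ _ hi))
    · have e : s + (k + 1) = (s + k) + 1 := by omega
      rw [e]
      exact hG _ _ h3

theorem tendsto_adPow_of_local {ι : Type*} {l : Filter ι} (K : ι → 𝔄) (h : ι → ℂ)
    (hh : Tendsto h l (𝓝 0)) (𝔏 : ℕ → Submodule ℂ 𝔄) (G N : ℕ → 𝔄)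
    (hG : ∀ s, ∀ X ∈ 𝔏 s, ad (G s) X ∈ 𝔏 (s + 1))
    (hN : ∀ s, ∀ X ∈ 𝔏 s, ad (N s) X ∈ 𝔏 (s + 1))
    (hK : ∀ s, ∀ᶠ i in l, ∀ X ∈ 𝔏 s, ad (K i) X = ad (G s) X - h i • ad (N s) X)
    (s : ℕ) (B : 𝔄) (hB : B ∈ 𝔏 s) (k : ℕ) :
    Tendsto (fun i => adPow (K i) k B) l (𝓝 (locD G s k B)) := by
  exact (ac_main K h hh 𝔏 G N hG hN hK s B hB k).1

end

end Claimed.Agent.R166
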