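/-
R166 Abs/Cls (leaf D1).  Abstract local net + the class `Cls N m c` used for Robinson's bound on iterated commutators.
  LocNet S 𝔄 : X ↦ L X (local algebra of the finite set X of sites): monotone, closed under -, *, disjoint supports commute.
  Cls N m c B : B is a finite sum of elements b_j ∈ L X_j with |X_j| ≤ m and  sum ‖b_j‖ ≤ c.
PROOF TEXT.  All three lemmas are inductions:
  norm_le: induction on the derivation (norm_add_le).
  mono: induction; in the `add` case write c' = c₁ + (c' - c₁) and use the induction hypothesis for the second summand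
        (generalize c' in the induction).
  sum: Finset.induction_on; empty sum: Cls.base ∅ (N.zero_mem ∅) with norm_zero.
Helper lemmas: prefix `cls_`.
-/
import Claimed.Agent.R166.Abs.Defs

set_option autoImplicit false
set_option linter.unusedSectionVars false

namespace Claimed.Agent.R166

noncomputable section

/-- abstract net of local algebras over finite sets of sites. -/
structure LocNet (S : Type*) (𝔄 : Type*) [DecidableEq S] [NormedRing 𝔄] where
  L : Finset S → Set 𝔄
  zero_mem : ∀ X, (0 : 𝔄) ∈ L X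
  sub_mem : ∀ {X : Finset S} {A B : 𝔄}, A ∈ L X → B ∈ L X → A - B ∈ L X
  mul_mem : ∀ {X : Finset S} {A B : 𝔄}, A ∈ L X → B ∈ L X → A * B ∈ L X
  mono : ∀ {X Y : Finset S}, X ⊆ Y → L X ⊆ L Y
  comm : ∀ {X Y : Finset S} {A B : 𝔄}, Disjoint X Y → A ∈ L X → B ∈ L Y → A * B = B * A

variable {S : Type*} {𝔄 : Type*} [DecidableEq S] [NormedRing 𝔄]

/-- finite sums of local elements with supports of size `≤ m` and total norm `≤ c`. -/
inductive Cls (N : LocNet S 𝔄) : ℕ → ℝ → 𝔄 → Prop
  | base {m : ℕ} {c : ℝ} {B : 𝔄} (X : Finset S) (hB : B ∈ N.L X) (hX : X.card ≤ m)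
      (hc : ‖B‖ ≤ c) : Cls N m c B
  | add {m : ℕ} {c₁ c₂ : ℝ} {B₁ B₂ : 𝔄} (h₁ : Cls N m c₁ B₁) (h₂ : Cls N m c₂ B₂) :
      Cls N m (c₁ + c₂) (B₁ + B₂)

theorem Cls.norm_le {N : LocNet S 𝔄} {m : ℕ} {c : ℝ} {B : 𝔄} (h : Cls N m c B) : ‖B‖ ≤ c := by
  induction h with
  | base X hB hX hc => exact hc
  | add h₁ h₂ ih₁ ih₂ => exact (norm_add_le _ _).trans (add_le_add ih₁ ih₂)

theorem Cls.mono {N : LocNet S 𝔄} {m : ℕ} {c c' : ℝ} {B : 𝔄} (h : Cls N m c B) (hc : c ≤ c') :
    Cls N m c' B := by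
  induction h generalizing c' with
  | base X hB hX hc' => exact Cls.base X hB hX (hc'.trans hc)
  | @add c₁ c₂ B₁ B₂ h₁ h₂ ih₁ ih₂ =>
    have h2 : Cls N _ (c' - c₁) B₂ := ih₂ (by linarith)
    have h3 := Cls.add h₁ h2
    have e : c₁ + (c' - c₁) = c' := by ring
    rw [e] at h3
    exact h3

theorem Cls.sum {N : LocNet S 𝔄} {m : ℕ} {I : Type*} (T : Finset I) (f : I → 𝔄) (c : I → ℝ)
    (h : ∀ i ∈ T, Cls N m (c i) (f i)) : Cls N m (∑ i ∈ T, c i) (∑ i ∈ T, f i) := by
  classical
  induction T using Finset.induction_on with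
  | empty =>
    simp only [Finset.sum_empty]
    exact Cls.base ∅ (N.zero_mem ∅) (by simp) (by simp)
  | insert a T ha ih =>
    rw [Finset.sum_insert ha, Finset.sum_insert ha]
    exact Cls.add (h a (Finset.mem_insert_self a T))
      (ih (fun i hi => h i (Finset.mem_insert_of_mem hi)))

end

end Claimed.Agent.R166
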