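/-
R166 Abs/ClsAd (leaf D2).  One commutator with a bounded-degree two-body interaction K = ∑_{i∈T} Φ i maps
  Cls m c  into  Cls (m+1) (2 J D m c).
PROOF TEXT.  Induction on the derivation of Cls N m c B.
 base (B ∈ L X, |X| ≤ m, ‖B‖ ≤ c):  ad K B = ∑_{i∈T} ad (Φ i) B (ad is additive in the first slot: Finset.sum_mul, mul_sum, sum_sub_distrib).
   If Disjoint (Y i) X the term vanishes (N.comm).  Let T' = T.filter (fun i => ¬ Disjoint (Y i) X).  (Finset.sum_filter_of_ne or sum_subset.)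
   For i ∈ T': ad (Φ i) B ∈ L (X ∪ Y i) (mono + mul_mem + sub_mem), |X ∪ Y i| ≤ m + 1 because
   |X ∪ Y| + |X ∩ Y| = |X| + |Y| (Finset.card_union_add_card_inter), |X ∩ Y| ≥ 1, |Y| ≤ 2;   ‖ad (Φ i) B‖ ≤ 2 J c (norm_ad_le).
   |T'| ≤ ∑_{x∈X} |{i ∈ T : x ∈ Y i}| ≤ m D:  T' ⊆ X.biUnion (fun x => T.filter (x ∈ Y ·)), Finset.card_biUnion_le.
   Cls.sum gives Cls (m+1) (|T'| * (2 J c)), then Cls.mono (0 ≤ c from norm_nonneg).
 add: ad_add, Cls.add, ring.
Helper lemmas: prefix `ca_`.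
-/
import Claimed.Agent.R166.Abs.Cls

set_option autoImplicit false
set_option linter.unusedSectionVars false

namespace Claimed.Agent.R166

noncomputable section

variable {S : Type*} {𝔄 : Type*} [DecidableEq S] [NormedRing 𝔄] [NormedAlgebra ℂ 𝔄]

theorem ca_sum_ad {I : Type*} (T : Finset I) (Φ : I → 𝔄) (B : 𝔄) :
    ad (∑ i ∈ T, Φ i) B = ∑ i ∈ T, ad (Φ i) B := by
  simp only [ad, Finset.sum_mul, Finset.mul_sum, Finset.sum_sub_distrib]

theorem ca_card_filter_le {I : Type*} (T : Finset I) (Y : I → Finset S) {D : ℕ}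
    (hD : ∀ x : S, (T.filter (fun i => x ∈ Y i)).card ≤ D) (X : Finset S) :
    (T.filter (fun i => ¬ Disjoint (Y i) X)).card ≤ X.card * D := by
  classical
  have hsub : T.filter (fun i => ¬ Disjoint (Y i) X) ⊆
      X.biUnion (fun x => T.filter (fun i => x ∈ Y i)) := by
    intro i hi
    rw [Finset.mem_filter] at hi
    obtain ⟨hiT, hnd⟩ := hi
    rw [Finset.not_disjoint_iff] at hnd
    obtain ⟨x, hxY, hxX⟩ := hnd
    rw [Finset.mem_biUnion]
    exact ⟨x, hxX, Finset.mem_filter.mpr ⟨hiT, hxY⟩⟩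
  calc (T.filter (fun i => ¬ Disjoint (Y i) X)).card
      ≤ (X.biUnion (fun x => T.filter (fun i => x ∈ Y i))).card := Finset.card_le_card hsub
    _ ≤ ∑ x ∈ X, (T.filter (fun i => x ∈ Y i)).card := Finset.card_biUnion_le
    _ ≤ ∑ _x ∈ X, D := Finset.sum_le_sum (fun x _ => hD x)
    _ = X.card * D := by simp

theorem ca_card_union_le {X Y : Finset S} {m : ℕ} (hX : X.card ≤ m) (hY : Y.card ≤ 2)
    (hnd : ¬ Disjoint Y X) : (X ∪ Y).card ≤ m + 1 := by
  have h1 := Finset.card_union_add_card_inter X Y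
  have h2 : 1 ≤ (X ∩ Y).card := by
    rw [Finset.not_disjoint_iff] at hnd
    obtain ⟨x, hxY, hxX⟩ := hnd
    exact Finset.card_pos.mpr ⟨x, Finset.mem_inter.mpr ⟨hxX, hxY⟩⟩
  omega

theorem ca_ad_mem_union (N : LocNet S 𝔄) {X Y : Finset S} {K B : 𝔄} (hK : K ∈ N.L Y)
    (hB : B ∈ N.L X) : ad K B ∈ N.L (X ∪ Y) := by
  have hK' : K ∈ N.L (X ∪ Y) := N.mono Finset.subset_union_right hK
  have hB' : B ∈ N.L (X ∪ Y) := N.mono Finset.subset_union_left hB
  exact N.sub_mem (N.mul_mem hK' hB') (N.mul_mem hB' hK')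

theorem Cls.ad_mem (N : LocNet S 𝔄) {I : Type*} (T : Finset I) (Φ : I → 𝔄) (Y : I → Finset S)
    {J : ℝ} {D : ℕ} (hJ0 : 0 ≤ J)
    (hΦ : ∀ i ∈ T, Φ i ∈ N.L (Y i)) (hY : ∀ i ∈ T, (Y i).card ≤ 2) (hJ : ∀ i ∈ T, ‖Φ i‖ ≤ J)
    (hD : ∀ x : S, (T.filter (fun i => x ∈ Y i)).card ≤ D)
    {m : ℕ} {c : ℝ} {B : 𝔄} (h : Cls N m c B) :
    Cls N (m + 1) (2 * J * D * m * c) (ad (∑ i ∈ T, Φ i) B) := by
  classical
  induction h with
  | @base c B X hB hX hc =>
    have hc0 : 0 ≤ c := (norm_nonneg B).trans hc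
    rw [ca_sum_ad]
    have hfil : ∑ i ∈ T.filter (fun i => ¬ Disjoint (Y i) X), ad (Φ i) B
        = ∑ i ∈ T, ad (Φ i) B := by
      apply Finset.sum_filter_of_ne
      intro i hi hne hdis
      exact hne (ad_eq_zero_of_commute (N.comm hdis (hΦ i hi) hB))
    rw [← hfil]
    have hterm : ∀ i ∈ T.filter (fun i => ¬ Disjoint (Y i) X),
        Cls N (m + 1) (2 * J * c) (ad (Φ i) B) := by
      intro i hi
      rw [Finset.mem_filter] at hi
      obtain ⟨hiT, hnd⟩ := hi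
      refine Cls.base (X ∪ Y i) (ca_ad_mem_union N (hΦ i hiT) hB)
        (ca_card_union_le hX (hY i hiT) hnd) ?_
      calc ‖ad (Φ i) B‖ ≤ 2 * ‖Φ i‖ * ‖B‖ := norm_ad_le _ _
        _ ≤ 2 * J * c := by
          have h1 := hJ i hiT
          have h2 : 0 ≤ ‖Φ i‖ := norm_nonneg _
          have h3 : 0 ≤ ‖B‖ := norm_nonneg _
          have h4 : ‖Φ i‖ * ‖B‖ ≤ J * c := mul_le_mul h1 hc h3 hJ0
          nlinarith
    have hs := Cls.sum (N := N) (m := m + 1) (T.filter (fun i => ¬ Disjoint (Y i) X))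
      (fun i => ad (Φ i) B) (fun _ => 2 * J * c) hterm
    refine Cls.mono hs ?_
    rw [Finset.sum_const, nsmul_eq_mul]
    have hcard : ((T.filter (fun i => ¬ Disjoint (Y i) X)).card : ℝ) ≤ (m : ℝ) * (D : ℝ) := by
      have h1 := ca_card_filter_le T Y hD X
      have h2 : X.card * D ≤ m * D := Nat.mul_le_mul_right D hX
      exact_mod_cast h1.trans h2
    have hnn : 0 ≤ 2 * J * c := by positivity
    calc ((T.filter (fun i => ¬ Disjoint (Y i) X)).card : ℝ) * (2 * J * c)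
        ≤ ((m : ℝ) * (D : ℝ)) * (2 * J * c) := mul_le_mul_of_nonneg_right hcard hnn
      _ = 2 * J * D * m * c := by ring
  | @add c₁ c₂ B₁ B₂ h₁ h₂ ih₁ ih₂ =>
    rw [ad_add]
    have h3 := Cls.add ih₁ ih₂
    have e : 2 * J * D * m * c₁ + 2 * J * D * m * c₂ = 2 * J * D * m * (c₁ + c₂) := by ring
    rw [e] at h3
    exact h3

end

end Claimed.Agent.R166
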