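/-
R166 Abs/ClsBound (leaf D3).  Robinson's bound: local elements are uniformly analytic for bounded-degree two-body interactions.
PROOF TEXT.  With m = |X|, a = 2 J D: by induction on k (adPow_succ, Cls.ad_mem)
     Cls N (m + k) (a^k * (m.ascFactorial k) * ‖B‖) (adPow K k B)
 (Nat.ascFactorial_succ : n.ascFactorial (k+1) = (n + k) * n.ascFactorial k; use Cls.mono with an equality/`le_of_eq (by push_cast; ring)`).
 Then Cls.norm_le and  m.ascFactorial k = k! * (m+k-1).choose k  (Nat.ascFactorial_eq_factorial_mul_choose', check the exact form)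
 ≤ k! * 2^(m+k)  (Nat.choose_le_two_pow / Nat.choose_le_pow..., for m = 0, k ≥ 1 the left side is 0).  a^k 2^k = (4 J D)^k.
Helper lemmas: prefix `cb_`.
-/
import Claimed.Agent.R166.Abs.ClsAd

set_option autoImplicit false
set_option linter.unusedSectionVars false

namespace Claimed.Agent.R166

noncomputable section

variable {S : Type*} {𝔄 : Type*} [DecidableEq S] [NormedRing 𝔄] [NormedAlgebra ℂ 𝔄]

theorem cb_cls (N : LocNet S 𝔄) {I : Type*} (T : Finset I) (Φ : I → 𝔄)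
    (Y : I → Finset S) {J : ℝ} {D : ℕ} (hJ0 : 0 ≤ J)
    (hΦ : ∀ i ∈ T, Φ i ∈ N.L (Y i)) (hY : ∀ i ∈ T, (Y i).card ≤ 2) (hJ : ∀ i ∈ T, ‖Φ i‖ ≤ J)
    (hD : ∀ x : S, (T.filter (fun i => x ∈ Y i)).card ≤ D)
    (X : Finset S) (B : 𝔄) (hB : B ∈ N.L X) (k : ℕ) :
    Cls N (X.card + k) ((2 * J * D) ^ k * (X.card.ascFactorial k : ℕ) * ‖B‖)
      (adPow (∑ i ∈ T, Φ i) k B) := by
  induction k with
  | zero =>
    refine Cls.base X hB (le_refl _) ?_
    simp
  | succ k ih =>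
    rw [adPow_succ]
    have h1 := Cls.ad_mem N T Φ Y hJ0 hΦ hY hJ hD ih
    refine Cls.mono h1 (le_of_eq ?_)
    rw [Nat.ascFactorial_succ]
    push_cast
    ring

theorem cb_asc_le (m k : ℕ) : m.ascFactorial k ≤ k.factorial * 2 ^ (m + k) := by
  rw [Nat.ascFactorial_eq_factorial_mul_choose']
  refine Nat.mul_le_mul_left _ ?_
  refine (Nat.choose_le_two_pow _ _).trans ?_
  exact Nat.pow_le_pow_right (by norm_num) (Nat.sub_le _ _)

theorem norm_adPow_le_of_interaction (N : LocNet S 𝔄) {I : Type*} (T : Finset I) (Φ : I → 𝔄)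
    (Y : I → Finset S) {J : ℝ} {D : ℕ} (hJ0 : 0 ≤ J)
    (hΦ : ∀ i ∈ T, Φ i ∈ N.L (Y i)) (hY : ∀ i ∈ T, (Y i).card ≤ 2) (hJ : ∀ i ∈ T, ‖Φ i‖ ≤ J)
    (hD : ∀ x : S, (T.filter (fun i => x ∈ Y i)).card ≤ D)
    (X : Finset S) (B : 𝔄) (hB : B ∈ N.L X) (k : ℕ) :
    ‖adPow (∑ i ∈ T, Φ i) k B‖ ≤ (2 ^ X.card * ‖B‖) * k.factorial * (4 * J * D) ^ k := by
  have h1 := (cb_cls N T Φ Y hJ0 hΦ hY hJ hD X B hB k).norm_le
  have h2 : ((X.card.ascFactorial k : ℕ) : ℝ) ≤ (k.factorial : ℝ) * 2 ^ (X.card + k) := by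
    exact_mod_cast cb_asc_le X.card k
  have h3 : (0 : ℝ) ≤ (2 * J * D) ^ k := by positivity
  calc ‖adPow (∑ i ∈ T, Φ i) k B‖
      ≤ (2 * J * D) ^ k * (X.card.ascFactorial k : ℕ) * ‖B‖ := h1
    _ ≤ (2 * J * D) ^ k * ((k.factorial : ℝ) * 2 ^ (X.card + k)) * ‖B‖ := by
        gcongr
    _ = (2 ^ X.card * ‖B‖) * k.factorial * (4 * J * D) ^ k := by
        have h4 : (4 * J * D : ℝ) = 2 * (2 * J * D) := by ring
        rw [h4]
        generalize (2 * J * D : ℝ) = a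
        rw [mul_pow, pow_add]
        ring

end

end Claimed.Agent.R166
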