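/-
R166 Abs/ConvDense (leaf C2).  Soft lemma: contractive additive maps that converge on a dense set converge everywhere.
PROOF TEXT.  Fix B.  Show that `map (fun i => T i B) l` is Cauchy (cauchy_map_iff / Metric.cauchy_iff or
`cauchy_map_iff_exists_tendsto`): given eps pick B' in the dense set with ‖B - B'‖ < eps/3; T i B' converges, hence is
Cauchy along l; ‖T i B - T j B‖ ≤ ‖T i (B - B')‖ + ‖T i B' - T j B'‖ + ‖T j (B' - B)‖.  CompleteSpace gives the limit.
Helper lemmas: prefix `cd_`.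
-/
import Mathlib

set_option autoImplicit false
set_option linter.unusedSectionVars false

namespace Claimed.Agent.R166

open Filter Topology

noncomputable section

theorem exists_tendsto_of_dense {E : Type*} [NormedAddCommGroup E] [CompleteSpace E]
    {ι : Type*} {l : Filter ι} [l.NeBot] (T : ι → E → E)
    (hsub : ∀ i X Y, T i (X - Y) = T i X - T i Y) (hnorm : ∀ i X, ‖T i X‖ ≤ ‖X‖)
    (𝔇 : Set E) (hD : Dense 𝔇)
    (hconv : ∀ B ∈ 𝔇, ∃ L : E, Tendsto (fun i => T i B) l (𝓝 L)) (B : E) :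
    ∃ L : E, Tendsto (fun i => T i B) l (𝓝 L) := by
  rw [← cauchy_map_iff_exists_tendsto]
  rw [Metric.cauchy_iff]
  refine ⟨inferInstance, ?_⟩
  intro ε hε
  have hε3 : 0 < ε / 3 := by positivity
  obtain ⟨B', hB'mem, hB'⟩ := Metric.dense_iff.mp hD B (ε / 3) hε3
  have hB'dist : ‖B - B'‖ < ε / 3 := by
    have := Metric.mem_ball.mp hB'mem
    rw [dist_comm, dist_eq_norm] at this
    exact this
  obtain ⟨L, hL⟩ := hconv B' hB'
  have hε6 : 0 < ε / 6 := by positivity
  have hev : ∀ᶠ i in l, dist (T i B') L < ε / 6 := (Metric.tendsto_nhds.mp hL) (ε / 6) hε6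
  refine ⟨(fun i => T i B) '' {i | dist (T i B') L < ε / 6}, Filter.image_mem_map hev, ?_⟩
  rintro _ ⟨i, hi, rfl⟩ _ ⟨j, hj, rfl⟩
  simp only [Set.mem_ofPred_eq] at hi hj
  have h1 : ‖T i B - T i B'‖ < ε / 3 := by
    rw [← hsub]; exact lt_of_le_of_lt (hnorm _ _) hB'dist
  have h2 : ‖T j B - T j B'‖ < ε / 3 := by
    rw [← hsub]; exact lt_of_le_of_lt (hnorm _ _) hB'dist
  have h3 : dist (T i B') (T j B') < ε / 3 := by
    calc dist (T i B') (T j B') ≤ dist (T i B') L + dist L (T j B') := dist_triangle _ _ _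
      _ = dist (T i B') L + dist (T j B') L := by rw [dist_comm L]
      _ < ε / 6 + ε / 6 := add_lt_add hi hj
      _ = ε / 3 := by ring
  calc dist (T i B) (T j B) ≤ dist (T i B) (T i B') + dist (T i B') (T j B') + dist (T j B') (T j B) :=
        dist_triangle4 _ _ _ _
    _ = ‖T i B - T i B'‖ + dist (T i B') (T j B') + ‖T j B - T j B'‖ := by
        rw [dist_eq_norm (T i B), dist_comm (T j B') (T j B), dist_eq_norm (T j B)]
    _ < ε / 3 + ε / 3 + ε / 3 := add_lt_add (add_lt_add h1 h3) h2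
    _ = ε := by ring

end

end Claimed.Agent.R166
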