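/-
R166 Abs/Series (leaf A1).  Hadamard / BCH series:
   exp(i z K) B exp(-i z K) = sum_k (i z)^k / k! * ad_K^k (B)       in any complex Banach algebra.
PROOF TEXT.  Let Lm, Rm : 𝔄 →L[ℂ] 𝔄 be left / right multiplication by K (ContinuousLinearMap.mul ℂ 𝔄 K,
(ContinuousLinearMap.mul ℂ 𝔄).flip K).  They commute, ad K = Lm - Rm as a continuous linear map T.
exp(w • T) = exp(w • Lm) * exp(-(w • Rm))  (NormedSpace.exp_add_of_commute),
exp(w • Lm) X = exp(w • K) * X and exp(-(w • Rm)) X = X * exp(-(w • K)): apply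
NormedSpace.exp_series_hasSum_exp' in 𝔄 →L[ℂ] 𝔄, evaluate at X (ContinuousLinearMap.apply is continuous,
HasSum.mapL / ContinuousLinearMap.hasSum), (w • Lm)^n X = (w • K)^n * X by induction, uniqueness of sums.
Finally exp(w • T) B = sum (1/k!) (w • T)^k B and (w • T)^k B = w^k • adPow K k B by induction. w = I * z.
Alternative proof: both sides solve the same linear ODE in z / compare Cauchy products.
Helper lemmas: prefix `ser_`.
-/
import Claimed.Agent.R166.Abs.Defs

set_option autoImplicit false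
set_option linter.unusedSectionVars false

namespace Claimed.Agent.R166

noncomputable section

variable {𝔄 : Type*} [NormedRing 𝔄] [NormedAlgebra ℂ 𝔄] [CompleteSpace 𝔄]

/-- left multiplication as a continuous linear map. -/
def serL (K : 𝔄) : 𝔄 →L[ℂ] 𝔄 := ContinuousLinearMap.mul ℂ 𝔄 K

/-- right multiplication as a continuous linear map. -/
def serR (K : 𝔄) : 𝔄 →L[ℂ] 𝔄 := (ContinuousLinearMap.mul ℂ 𝔄).flip K

theorem ser_L_apply (K X : 𝔄) : serL K X = K * X := rfl

theorem ser_R_apply (K X : 𝔄) : serR K X = X * K := rfl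

theorem ser_L_pow_apply (K X : 𝔄) (n : ℕ) : ((serL K) ^ n) X = K ^ n * X := by
  induction n generalizing X with
  | zero => simp
  | succ n ih =>
    rw [pow_succ, mul_apply_eq_comp, ih, ser_L_apply, pow_succ, mul_assoc]

theorem ser_R_pow_apply (K X : 𝔄) (n : ℕ) : ((serR K) ^ n) X = X * K ^ n := by
  induction n generalizing X with
  | zero => simp
  | succ n ih =>
    rw [pow_succ, mul_apply_eq_comp, ih, ser_R_apply, pow_succ', mul_assoc]

theorem ser_commute (K K' : 𝔄) : Commute (serL K) (serR K') := by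
  ext X
  simp only [mul_apply_eq_comp, ser_L_apply, ser_R_apply, mul_assoc]

theorem ser_exp_L_apply (K X : 𝔄) :
    NormedSpace.exp (serL K) X = NormedSpace.exp K * X := by
  have h1 := (ContinuousLinearMap.apply ℂ 𝔄 X).hasSum
    (NormedSpace.exp_series_hasSum_exp' (𝕂 := ℂ) (serL K))
  have h2 := (NormedSpace.exp_series_hasSum_exp' (𝕂 := ℂ) K).mul_right X
  refine h1.unique ?_
  refine h2.congr_fun ?_
  intro n
  simp only [ContinuousLinearMap.apply_apply, smul_apply, ser_L_pow_apply,
    smul_mul_assoc]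

theorem ser_exp_R_apply (K X : 𝔄) :
    NormedSpace.exp (serR K) X = X * NormedSpace.exp K := by
  have h1 := (ContinuousLinearMap.apply ℂ 𝔄 X).hasSum
    (NormedSpace.exp_series_hasSum_exp' (𝕂 := ℂ) (serR K))
  have h2 := (NormedSpace.exp_series_hasSum_exp' (𝕂 := ℂ) K).mul_left X
  refine h1.unique ?_
  refine h2.congr_fun ?_
  intro n
  simp only [ContinuousLinearMap.apply_apply, smul_apply, ser_R_pow_apply,
    mul_smul_comm]

theorem ser_T_pow_apply (K B : 𝔄) (w : ℂ) (n : ℕ) :
    ((serL (w • K) + serR ((-w) • K)) ^ n) B = w ^ n • adPow K n B := by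
  induction n with
  | zero => simp
  | succ n ih =>
    rw [pow_succ', mul_apply_eq_comp, ih, add_apply, ser_L_apply,
      ser_R_apply, adPow_succ, ad, pow_succ']
    simp only [smul_mul_assoc, mul_smul_comm, neg_smul, smul_sub, smul_smul, mul_neg]
    rw [mul_comm (w ^ n) w, sub_eq_add_neg]

theorem conjExp_hasSum (K B : 𝔄) (z : ℂ) :
    HasSum (fun k : ℕ => ((Complex.I * z) ^ k / (k.factorial : ℂ)) • adPow K k B)
      (conjExp K z B) := by
  let _ : NormedAlgebra ℚ (𝔄 →L[ℂ] 𝔄) := NormedAlgebra.restrictScalars ℚ ℂ _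
  set w : ℂ := Complex.I * z with hw
  have h1 := (ContinuousLinearMap.apply ℂ 𝔄 B).hasSum
    (NormedSpace.exp_series_hasSum_exp' (𝕂 := ℂ) (serL (w • K) + serR ((-w) • K)))
  have h2 : NormedSpace.exp (serL (w • K) + serR ((-w) • K)) B = conjExp K z B := by
    rw [NormedSpace.exp_add_of_commute (ser_commute _ _), mul_apply_eq_comp,
      ser_exp_R_apply, ser_exp_L_apply, conjExp, mul_assoc]
  rw [ContinuousLinearMap.apply_apply, h2] at h1
  refine h1.congr_fun ?_
  intro n
  simp only [ContinuousLinearMap.apply_apply, smul_apply, ser_T_pow_apply,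
    smul_smul]
  congr 1
  rw [div_eq_mul_inv, mul_comm]

end

end Claimed.Agent.R166
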