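/-
R166 Abs/ConvSmall (leaf C1).  Convergence of conjExp (K i) z B for small complex times on uniformly analytic vectors.
PROOF TEXT.  conjExp (K i) z B = ∑' k, ((I z)^k/k!) • adPow (K i) k B  (conjExp_hasSum).  Term k tends to ((I z)^k/k!) • D k,
and is bounded in norm by C (|z|/r)^k, summable because |z| < r.  `tendsto_tsum_of_dominated_convergence`.
(choose D from hconv.)  Helper lemmas: prefix `cs_`.
-/
import Claimed.Agent.R166.Abs.Series

set_option autoImplicit false
set_option linter.unusedSectionVars false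

namespace Claimed.Agent.R166

open Filter Topology

noncomputable section

variable {𝔄 : Type*} [NormedRing 𝔄] [NormedAlgebra ℂ 𝔄] [CompleteSpace 𝔄]

theorem exists_tendsto_conjExp_small {ι : Type*} {l : Filter ι} (K : ι → 𝔄) {B : 𝔄} {C r : ℝ}
    (hr : 0 < r)
    (hbd : ∀ i k, ‖adPow (K i) k B‖ ≤ C * k.factorial * (r⁻¹) ^ k)
    (hconv : ∀ k, ∃ D : 𝔄, Tendsto (fun i => adPow (K i) k B) l (𝓝 D))
    (z : ℂ) (hz : ‖z‖ < r) :
    ∃ L : 𝔄, Tendsto (fun i => conjExp (K i) z B) l (𝓝 L) := by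
  choose D hD using hconv
  refine ⟨∑' k : ℕ, ((Complex.I * z) ^ k / (k.factorial : ℂ)) • D k, ?_⟩
  have heq : (fun i => conjExp (K i) z B) =
      fun i => ∑' k : ℕ, ((Complex.I * z) ^ k / (k.factorial : ℂ)) • adPow (K i) k B := by
    funext i
    exact (conjExp_hasSum (K i) B z).tsum_eq.symm
  rw [heq]
  have hq0 : 0 ≤ ‖z‖ * r⁻¹ := mul_nonneg (norm_nonneg _) (inv_nonneg.mpr hr.le)
  have hq1 : ‖z‖ * r⁻¹ < 1 := by
    rw [← div_eq_mul_inv, div_lt_one hr]
    exact hz
  refine tendsto_tsum_of_dominated_convergence (bound := fun k : ℕ => C * (‖z‖ * r⁻¹) ^ k)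
    ((summable_geometric_of_lt_one hq0 hq1).mul_left C) ?_ ?_
  · intro k
    exact (hD k).const_smul _
  · refine Filter.Eventually.of_forall fun i k => ?_
    have hf : (0 : ℝ) < (k.factorial : ℝ) := by exact_mod_cast k.factorial_pos
    have hn : ‖(Complex.I * z) ^ k / (k.factorial : ℂ)‖ = ‖z‖ ^ k / (k.factorial : ℝ) := by
      rw [norm_div, norm_pow, norm_mul, Complex.norm_I, one_mul, Complex.norm_natCast]
    rw [norm_smul, hn]
    calc ‖z‖ ^ k / (k.factorial : ℝ) * ‖adPow (K i) k B‖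
        ≤ ‖z‖ ^ k / (k.factorial : ℝ) * (C * k.factorial * (r⁻¹) ^ k) :=
          mul_le_mul_of_nonneg_left (hbd i k) (by positivity)
      _ = C * (‖z‖ * r⁻¹) ^ k := by
          rw [mul_pow]
          field_simp

end

end Claimed.Agent.R166
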