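/-
R166 Abs/Group (leaf A2).  Group law, zero time, multiplicativity and holomorphy of z ↦ conjExp K z B.
PROOF TEXT.  (I*(z+w)) • K = (I*z) • K + (I*w) • K, the two summands commute (both are multiples of K:
(Commute.refl K).smul_left _ |>.smul_right _), NormedSpace.exp_add_of_commute; the same for the negatives, where the
order of the two factors has to be swapped (they commute: Commute.exp).  Differentiability:
NormedSpace.hasDerivAt_exp_smul_const / differentiable_exp_smul_const composed with z ↦ I*z, products of
differentiable maps into a normed algebra (Differentiable.mul).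
exp(w•K) * exp(-(w•K)) = 1:  ← exp_add_of_commute, add_neg_cancel, exp_zero.
Helper lemmas: prefix `grp_`.
-/
import Claimed.Agent.R166.Abs.Defs

set_option autoImplicit false
set_option linter.unusedSectionVars false

namespace Claimed.Agent.R166

noncomputable section

variable {𝔄 : Type*} [NormedRing 𝔄] [NormedAlgebra ℂ 𝔄] [CompleteSpace 𝔄]

theorem grp_exp_add (K : 𝔄) (a b : ℂ) :
    NormedSpace.exp ((a + b) • K) = NormedSpace.exp (a • K) * NormedSpace.exp (b • K) := by
  rw [add_smul]
  exact NormedSpace.exp_add_of_commute_of_mem_ball (𝕂 := ℂ) (((Commute.refl K).smul_left a).smul_right b)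
    ((NormedSpace.expSeries_radius_eq_top ℂ 𝔄).symm ▸ edist_lt_top _ _)
    ((NormedSpace.expSeries_radius_eq_top ℂ 𝔄).symm ▸ edist_lt_top _ _)

theorem grp_exp_zero (K : 𝔄) : NormedSpace.exp ((0 : ℂ) • K) = 1 := by
  rw [zero_smul, NormedSpace.exp_zero]

theorem grp_exp_neg_mul (K : 𝔄) (a : ℂ) :
    NormedSpace.exp ((-a) • K) * NormedSpace.exp (a • K) = 1 := by
  rw [← grp_exp_add, neg_add_cancel, grp_exp_zero]

theorem conjExp_add (K B : 𝔄) (z w : ℂ) :
    conjExp K (z + w) B = conjExp K z (conjExp K w B) := by
  simp only [conjExp]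
  have h1 : Complex.I * (z + w) = Complex.I * z + Complex.I * w := by ring
  have h2 : -(Complex.I * (z + w)) = -(Complex.I * w) + -(Complex.I * z) := by ring
  rw [h2, h1, grp_exp_add, grp_exp_add]
  simp only [mul_assoc]

theorem conjExp_zero (K B : 𝔄) : conjExp K 0 B = B := by
  simp [conjExp]

theorem conjExp_mul (K : 𝔄) (z : ℂ) (B C : 𝔄) :
    conjExp K z (B * C) = conjExp K z B * conjExp K z C := by
  simp only [conjExp]
  have h := grp_exp_neg_mul K (Complex.I * z)
  calc NormedSpace.exp ((Complex.I * z) • K) * (B * C) * NormedSpace.exp ((-(Complex.I * z)) • K)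
      = NormedSpace.exp ((Complex.I * z) • K) * B * 1 * C * NormedSpace.exp ((-(Complex.I * z)) • K) := by
        simp only [mul_one, mul_assoc]
    _ = _ := by rw [← h]; simp only [mul_assoc]

theorem grp_differentiable_exp (K : 𝔄) (c : ℂ) :
    Differentiable ℂ (fun z : ℂ => NormedSpace.exp ((c * z) • K)) := by
  intro z
  have h := (hasDerivAt_exp_smul_const (𝕂 := ℂ) K (c * z)).differentiableAt
  have h2 : DifferentiableAt ℂ (fun z : ℂ => c * z) z := by fun_prop
  exact h.comp z h2

theorem differentiable_conjExp (K B : 𝔄) : Differentiable ℂ (fun z : ℂ => conjExp K z B) := by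
  simp only [conjExp]
  have h1 := grp_differentiable_exp K Complex.I
  have h2 := grp_differentiable_exp K (-Complex.I)
  have h3 : (fun z : ℂ => NormedSpace.exp ((-(Complex.I * z)) • K)) =
      (fun z : ℂ => NormedSpace.exp ((-Complex.I * z) • K)) := by
    funext z; rw [neg_mul]
  rw [← h3] at h2
  exact (h1.mul (differentiable_const B)).mul h2

/-- imaginary time `i β` is conjugation with the Gibbs weight `exp(-β K)`. -/
theorem conjExp_add_I_mul (K B : 𝔄) (z : ℂ) (β : ℝ) :
    conjExp K (z + Complex.I * β) B =
      NormedSpace.exp ((-(β : ℂ)) • K) * conjExp K z B * NormedSpace.exp ((β : ℂ) • K) := by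
  simp only [conjExp]
  have h1 : Complex.I * (z + Complex.I * β) = -(β : ℂ) + Complex.I * z := by
    have := Complex.I_mul_I
    linear_combination (β : ℂ) * this
  have h2 : -(Complex.I * (z + Complex.I * β)) = -(Complex.I * z) + (β : ℂ) := by
    have := Complex.I_mul_I
    linear_combination -(β : ℂ) * this
  rw [h2, h1, grp_exp_add, grp_exp_add]
  simp only [mul_assoc]

end

end Claimed.Agent.R166
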