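/-
R166 Abs/Norm (leaf A3).  Norm estimates for conjExp in a C*-algebra, K selfadjoint.
PROOF TEXT.
 norm_conjExp_real: for real t, u = exp((I*t) • K) is unitary (NormedSpace.exp_mem_unitary_of_mem_skewAdjoint:
   (I*t) • K is skew-adjoint; or selfAdjoint.expUnitary), exp((-(I*t)) • K) = star u; then
   CStarRing.norm_coe_unitary_mul / norm_mul_coe_unitary (names: `CStarRing.norm_unitary_mul`-family, grep `unitary` in
   Mathlib/Analysis/CStarAlgebra/Basic.lean).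
 norm_conjExp_le: z = re z + I*(im z)... conjExp K z B = conjExp K (re z) (conjExp K (I * im z) B) (conjExp_add), and
   ‖exp(a)‖ ≤ exp ‖a‖ (NormedSpace.norm_exp_le or via the series), ‖(I*(I*y)) • K‖ = |y| ‖K‖.
 norm_conjExp_le_of_analytic: the same splitting, and conjExp_hasSum at the purely imaginary time I*y, |y| ≤ r/2:
   ‖term k‖ ≤ |y|^k / k! * (C k! r^{-k}) ≤ C (1/2)^k;  tsum_geometric_two; `tsum_of_norm_bounded` / HasSum.norm_le_of_bounded.
Helper lemmas: prefix `nrm_`.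
-/
import Claimed.Agent.R166.Abs.Series
import Claimed.Agent.R166.Abs.Group

set_option autoImplicit false
set_option linter.unusedSectionVars false

namespace Claimed.Agent.R166

noncomputable section

variable {𝔄 : Type*} [NormedRing 𝔄] [NormedAlgebra ℂ 𝔄] [CompleteSpace 𝔄]
  [StarRing 𝔄] [CStarRing 𝔄] [StarModule ℂ 𝔄]

theorem nrm_skew {K : 𝔄} (hK : IsSelfAdjoint K) (t : ℝ) :
    (Complex.I * (t : ℂ)) • K ∈ skewAdjoint 𝔄 := by
  refine hK.smul_mem_skewAdjoint ?_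
  rw [skewAdjoint.mem_iff]
  simp

theorem nrm_one_le : ‖(1 : 𝔄)‖ ≤ 1 := by
  rcases subsingleton_or_nontrivial 𝔄 with h | h
  · have : (1 : 𝔄) = 0 := Subsingleton.elim _ _
    rw [this, norm_zero]
    exact zero_le_one
  · exact CStarRing.norm_one.le

theorem nrm_pow_le (a : 𝔄) (n : ℕ) : ‖a ^ n‖ ≤ ‖a‖ ^ n := by
  induction n with
  | zero => simpa using nrm_one_le (𝔄 := 𝔄)
  | succ n ih =>
    rw [pow_succ, pow_succ]
    exact (norm_mul_le _ _).trans (mul_le_mul_of_nonneg_right ih (norm_nonneg _))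

theorem nrm_exp_le (a : 𝔄) : ‖NormedSpace.exp a‖ ≤ Real.exp ‖a‖ := by
  have h1 : HasSum (fun n : ℕ => ‖a‖ ^ n / (n.factorial : ℝ)) (Real.exp ‖a‖) := by
    rw [Real.exp_eq_exp_ℝ]
    exact NormedSpace.expSeries_div_hasSum_exp ‖a‖
  have h2 : HasSum (fun n : ℕ => ((n.factorial : ℂ)⁻¹) • a ^ n) (NormedSpace.exp a) :=
    NormedSpace.exp_series_hasSum_exp' (𝕂 := ℂ) a
  refine h2.norm_le_of_bounded h1 fun n => ?_
  rw [norm_smul, norm_inv, Complex.norm_natCast, div_eq_inv_mul]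
  exact mul_le_mul_of_nonneg_left (nrm_pow_le a n) (by positivity)

theorem norm_conjExp_real {K : 𝔄} (hK : IsSelfAdjoint K) (t : ℝ) (B : 𝔄) :
    ‖conjExp K (t : ℂ) B‖ = ‖B‖ := by
  let +nondep : NormedAlgebra ℚ 𝔄 := .restrictScalars ℚ ℂ 𝔄
  have h1 : NormedSpace.exp ((Complex.I * (t : ℂ)) • K) ∈ unitary 𝔄 :=
    NormedSpace.exp_mem_unitary_of_mem_skewAdjoint (nrm_skew hK t)
  have h2 : NormedSpace.exp ((-(Complex.I * (t : ℂ))) • K) ∈ unitary 𝔄 := by
    have := NormedSpace.exp_mem_unitary_of_mem_skewAdjoint (nrm_skew hK (-t))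
    have e : (Complex.I * ((-t : ℝ) : ℂ)) = -(Complex.I * (t : ℂ)) := by
      push_cast; ring
    rwa [e] at this
  unfold conjExp
  rw [CStarRing.norm_mul_mem_unitary _ h2, CStarRing.norm_mem_unitary_mul _ h1]

theorem nrm_split {K : 𝔄} (hK : IsSelfAdjoint K) (z : ℂ) (B : 𝔄) :
    ‖conjExp K z B‖ = ‖conjExp K (Complex.I * (z.im : ℂ)) B‖ := by
  have e : z = (z.re : ℂ) + Complex.I * (z.im : ℂ) := by
    conv_lhs => rw [← Complex.re_add_im z]
    ring
  conv_lhs => rw [e]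
  rw [conjExp_add, norm_conjExp_real hK]

theorem norm_conjExp_le {K : 𝔄} (hK : IsSelfAdjoint K) (z : ℂ) (B : 𝔄) :
    ‖conjExp K z B‖ ≤ Real.exp (2 * |z.im| * ‖K‖) * ‖B‖ := by
  rw [nrm_split hK]
  set y : ℝ := z.im with hy
  have n1 : ‖(Complex.I * (Complex.I * (y : ℂ))) • K‖ = |y| * ‖K‖ := by
    rw [norm_smul]; simp
  have n2 : ‖(-(Complex.I * (Complex.I * (y : ℂ)))) • K‖ = |y| * ‖K‖ := by
    rw [norm_smul]; simp
  have e1 := nrm_exp_le ((Complex.I * (Complex.I * (y : ℂ))) • K)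
  have e2 := nrm_exp_le ((-(Complex.I * (Complex.I * (y : ℂ)))) • K)
  rw [n1] at e1
  rw [n2] at e2
  have hexp : Real.exp (2 * |y| * ‖K‖) = Real.exp (|y| * ‖K‖) * Real.exp (|y| * ‖K‖) := by
    rw [← Real.exp_add]; congr 1; ring
  unfold conjExp
  calc ‖NormedSpace.exp ((Complex.I * (Complex.I * (y : ℂ))) • K) * B *
        NormedSpace.exp ((-(Complex.I * (Complex.I * (y : ℂ)))) • K)‖
      ≤ ‖NormedSpace.exp ((Complex.I * (Complex.I * (y : ℂ))) • K)‖ * ‖B‖ *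
        ‖NormedSpace.exp ((-(Complex.I * (Complex.I * (y : ℂ)))) • K)‖ :=
        (norm_mul_le _ _).trans (mul_le_mul_of_nonneg_right (norm_mul_le _ _) (norm_nonneg _))
    _ ≤ Real.exp (|y| * ‖K‖) * ‖B‖ * Real.exp (|y| * ‖K‖) := by
        gcongr
    _ = Real.exp (2 * |y| * ‖K‖) * ‖B‖ := by rw [hexp]; ring

theorem norm_conjExp_le_of_analytic {K : 𝔄} (hK : IsSelfAdjoint K) {B : 𝔄} {C r : ℝ} (hr : 0 < r)
    (hB : ∀ k : ℕ, ‖adPow K k B‖ ≤ C * k.factorial * (r⁻¹) ^ k) (z : ℂ) (hz : |z.im| ≤ r / 2) :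
    ‖conjExp K z B‖ ≤ 2 * C := by
  rw [nrm_split hK]
  set y : ℝ := z.im with hy
  have hC : 0 ≤ C := by
    have := hB 0
    simp only [adPow_zero, Nat.factorial_zero, Nat.cast_one, mul_one, pow_zero] at this
    exact (norm_nonneg _).trans this
  have h1 := conjExp_hasSum K B (Complex.I * (y : ℂ))
  have h2 : HasSum (fun k : ℕ => C * (1 / 2 : ℝ) ^ k) (C * 2) := hasSum_geometric_two.mul_left C
  have h3 := h1.norm_le_of_bounded h2 fun k => ?_
  · linarith
  · have hk : (0 : ℝ) < (k.factorial : ℝ) := by exact_mod_cast k.factorial_pos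
    have hn : ‖(Complex.I * (Complex.I * (y : ℂ))) ^ k / (k.factorial : ℂ)‖
        = |y| ^ k / (k.factorial : ℝ) := by
      rw [norm_div, norm_pow, Complex.norm_natCast]; simp
    rw [norm_smul, hn]
    have hyr : |y| * r⁻¹ ≤ 1 / 2 := by
      rw [← div_eq_mul_inv, div_le_iff₀ hr]; linarith
    calc |y| ^ k / (k.factorial : ℝ) * ‖adPow K k B‖
        ≤ |y| ^ k / (k.factorial : ℝ) * (C * k.factorial * (r⁻¹) ^ k) :=
          mul_le_mul_of_nonneg_left (hB k) (by positivity)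
      _ = C * (|y| * r⁻¹) ^ k := by
          rw [mul_pow]; field_simp
      _ ≤ C * (1 / 2 : ℝ) ^ k := by
          refine mul_le_mul_of_nonneg_left ?_ hC
          exact pow_le_pow_left₀ (by positivity) hyr k

end

end Claimed.Agent.R166
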