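/-
R166 Abs/Conv (leaves C3, C4).  Existence of the limiting dynamics for all real times (Robinson's argument), and
independence of the approximating sequence.
PROOF TEXT.
 exists_tendsto_conjExp (C3).  Q(t) := ∀ B, ∃ L, Tendsto (fun i => conjExp (K i) t B) l (𝓝 L).
   (a) |t| < r: for B in 𝔇 by exists_tendsto_conjExp_small (‖(t:ℂ)‖ = |t|), for all B by exists_tendsto_of_dense with
       T i = conjExp (K i) t (conjExp_sub_right, norm_conjExp_real).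
   (b) Q(t), Q(s) => Q(t+s): conjExp (K i) (t+s) B = conjExp (K i) t (conjExp (K i) s B) (conjExp_add, push_cast);
       Ls := lim conjExp (K i) s B, L := lim conjExp (K i) t Ls;
       ‖conjExp (K i) t (conjExp (K i) s B) - L‖ ≤ ‖conjExp (K i) s B - Ls‖ + ‖conjExp (K i) t Ls - L‖ (isometry + conjExp_sub_right).
   (c) Q(m • s) for all m : ℕ by induction, t = m • (t/m) with |t/m| < r (exists_nat_gt (|t|/r)).
 exists_tendsto_conjExp_pair (C4).  Apply C3 to the index type ι ⊕ ι', family Sum.elim K K', filter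
   map Sum.inl l ⊔ map Sum.inr l'  (Filter.tendsto_sup, Filter.tendsto_map'_iff; NeBot by Filter.neBot_sup_iff / inferInstance).
Helper lemmas: prefix `cv_`.
-/
import Claimed.Agent.R166.Abs.Norm
import Claimed.Agent.R166.Abs.ConvSmall
import Claimed.Agent.R166.Abs.ConvDense

set_option autoImplicit false
set_option linter.unusedSectionVars false

namespace Claimed.Agent.R166

open Filter Topology

noncomputable section

variable {𝔄 : Type*} [NormedRing 𝔄] [NormedAlgebra ℂ 𝔄] [CompleteSpace 𝔄]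
  [StarRing 𝔄] [CStarRing 𝔄] [StarModule ℂ 𝔄]

theorem cv_small {ι : Type*} {l : Filter ι} [l.NeBot] (K : ι → 𝔄)
    (hK : ∀ i, IsSelfAdjoint (K i)) (𝔇 : Set 𝔄) (hD : Dense 𝔇) {r : ℝ} (hr : 0 < r)
    (hbd : ∀ B ∈ 𝔇, ∃ C : ℝ, ∀ i k, ‖adPow (K i) k B‖ ≤ C * k.factorial * (r⁻¹) ^ k)
    (hconv : ∀ B ∈ 𝔇, ∀ k, ∃ D : 𝔄, Tendsto (fun i => adPow (K i) k B) l (𝓝 D))
    (t : ℝ) (ht : |t| < r) (B : 𝔄) :
    ∃ L : 𝔄, Tendsto (fun i => conjExp (K i) (t : ℂ) B) l (𝓝 L) := by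
  refine exists_tendsto_of_dense (fun i X => conjExp (K i) (t : ℂ) X)
    (fun i X Y => conjExp_sub_right _ _ _ _)
    (fun i X => (norm_conjExp_real (hK i) t X).le) 𝔇 hD ?_ B
  intro B' hB'
  obtain ⟨C, hC⟩ := hbd B' hB'
  refine exists_tendsto_conjExp_small K hr hC (hconv B' hB') (t : ℂ) ?_
  rw [Complex.norm_real, Real.norm_eq_abs]
  exact ht

theorem cv_add {ι : Type*} {l : Filter ι} (K : ι → 𝔄)
    (hK : ∀ i, IsSelfAdjoint (K i)) (t s : ℝ)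
    (ht : ∀ B : 𝔄, ∃ L : 𝔄, Tendsto (fun i => conjExp (K i) (t : ℂ) B) l (𝓝 L))
    (hs : ∀ B : 𝔄, ∃ L : 𝔄, Tendsto (fun i => conjExp (K i) (s : ℂ) B) l (𝓝 L)) (B : 𝔄) :
    ∃ L : 𝔄, Tendsto (fun i => conjExp (K i) ((t + s : ℝ) : ℂ) B) l (𝓝 L) := by
  obtain ⟨Ls, hLs⟩ := hs B
  obtain ⟨L, hL⟩ := ht Ls
  refine ⟨L, ?_⟩
  rw [tendsto_iff_norm_sub_tendsto_zero] at hLs hL ⊢
  refine squeeze_zero (fun i => norm_nonneg _) (fun i => ?_) (by simpa using hLs.add hL)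
  have h1 : conjExp (K i) ((t + s : ℝ) : ℂ) B - L
      = conjExp (K i) (t : ℂ) (conjExp (K i) (s : ℂ) B - Ls)
        + (conjExp (K i) (t : ℂ) Ls - L) := by
    rw [conjExp_sub_right, Complex.ofReal_add, conjExp_add]; abel
  rw [h1]
  refine (norm_add_le _ _).trans ?_
  rw [norm_conjExp_real (hK i)]

theorem cv_nat {ι : Type*} {l : Filter ι} (K : ι → 𝔄)
    (hK : ∀ i, IsSelfAdjoint (K i)) (s : ℝ)
    (hs : ∀ B : 𝔄, ∃ L : 𝔄, Tendsto (fun i => conjExp (K i) (s : ℂ) B) l (𝓝 L)) (m : ℕ) :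
    ∀ B : 𝔄, ∃ L : 𝔄, Tendsto (fun i => conjExp (K i) (((m : ℝ) * s : ℝ) : ℂ) B) l (𝓝 L) := by
  induction m with
  | zero =>
    intro B
    refine ⟨B, ?_⟩
    simp only [Nat.cast_zero, zero_mul, Complex.ofReal_zero, conjExp_zero]
    exact tendsto_const_nhds
  | succ m ih =>
    intro B
    have h := cv_add K hK s ((m : ℝ) * s) hs ih B
    have e : ((m + 1 : ℕ) : ℝ) * s = s + (m : ℝ) * s := by push_cast; ring
    rw [e]
    exact h

theorem exists_tendsto_conjExp {ι : Type*} {l : Filter ι} [l.NeBot] (K : ι → 𝔄)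
    (hK : ∀ i, IsSelfAdjoint (K i)) (𝔇 : Set 𝔄) (hD : Dense 𝔇) {r : ℝ} (hr : 0 < r)
    (hbd : ∀ B ∈ 𝔇, ∃ C : ℝ, ∀ i k, ‖adPow (K i) k B‖ ≤ C * k.factorial * (r⁻¹) ^ k)
    (hconv : ∀ B ∈ 𝔇, ∀ k, ∃ D : 𝔄, Tendsto (fun i => adPow (K i) k B) l (𝓝 D))
    (t : ℝ) (B : 𝔄) :
    ∃ L : 𝔄, Tendsto (fun i => conjExp (K i) (t : ℂ) B) l (𝓝 L) := by
  obtain ⟨m, hm⟩ := exists_nat_gt (|t| / r)
  have hm0 : (0 : ℝ) < m := lt_of_le_of_lt (div_nonneg (abs_nonneg t) hr.le) hm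
  have hsm : |t / m| < r := by
    rw [abs_div, abs_of_pos hm0, div_lt_iff₀ hm0]
    rw [div_lt_iff₀ hr] at hm
    linarith
  have h := cv_nat K hK (t / m) (cv_small K hK 𝔇 hD hr hbd hconv (t / m) hsm) m B
  have e : (m : ℝ) * (t / m) = t := by field_simp
  rw [e] at h
  exact h

theorem exists_tendsto_conjExp_pair {ι ι' : Type*} {l : Filter ι} {l' : Filter ι'} [l.NeBot]
    [l'.NeBot] (K : ι → 𝔄) (K' : ι' → 𝔄)
    (hK : ∀ i, IsSelfAdjoint (K i)) (hK' : ∀ i, IsSelfAdjoint (K' i))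
    (𝔇 : Set 𝔄) (hD : Dense 𝔇) {r : ℝ} (hr : 0 < r)
    (hbd : ∀ B ∈ 𝔇, ∃ C : ℝ, ∀ i k, ‖adPow (K i) k B‖ ≤ C * k.factorial * (r⁻¹) ^ k)
    (hbd' : ∀ B ∈ 𝔇, ∃ C : ℝ, ∀ i k, ‖adPow (K' i) k B‖ ≤ C * k.factorial * (r⁻¹) ^ k)
    (hconv : ∀ B ∈ 𝔇, ∀ k, ∃ D : 𝔄, Tendsto (fun i => adPow (K i) k B) l (𝓝 D) ∧
      Tendsto (fun i => adPow (K' i) k B) l' (𝓝 D))
    (t : ℝ) (B : 𝔄) :
    ∃ L : 𝔄, Tendsto (fun i => conjExp (K i) (t : ℂ) B) l (𝓝 L) ∧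
      Tendsto (fun i => conjExp (K' i) (t : ℂ) B) l' (𝓝 L) := by
  have hne : (map Sum.inl l ⊔ map Sum.inr l' : Filter (ι ⊕ ι')).NeBot := inferInstance
  obtain ⟨L, hL⟩ := exists_tendsto_conjExp (l := map Sum.inl l ⊔ map Sum.inr l') (Sum.elim K K')
    (by rintro (i | i); exacts [hK i, hK' i]) 𝔇 hD hr
    (by
      intro B hB
      obtain ⟨C, hC⟩ := hbd B hB
      obtain ⟨C', hC'⟩ := hbd' B hB
      refine ⟨max C C', ?_⟩
      have hr' : (0 : ℝ) ≤ r⁻¹ := (inv_pos.mpr hr).le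
      rintro (i | i) k
      · refine (hC i k).trans ?_
        have : (0 : ℝ) ≤ (k.factorial : ℝ) * (r⁻¹) ^ k := by positivity
        rw [mul_assoc, mul_assoc]
        exact mul_le_mul_of_nonneg_right (le_max_left _ _) this
      · refine (hC' i k).trans ?_
        have : (0 : ℝ) ≤ (k.factorial : ℝ) * (r⁻¹) ^ k := by positivity
        rw [mul_assoc, mul_assoc]
        exact mul_le_mul_of_nonneg_right (le_max_right _ _) this)
    (by
      intro B hB k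
      obtain ⟨D, hD1, hD2⟩ := hconv B hB k
      refine ⟨D, ?_⟩
      rw [Filter.tendsto_sup]
      exact ⟨Filter.tendsto_map'_iff.mpr hD1, Filter.tendsto_map'_iff.mpr hD2⟩) t B
  rw [Filter.tendsto_sup] at hL
  exact ⟨L, Filter.tendsto_map'_iff.mp hL.1, Filter.tendsto_map'_iff.mp hL.2⟩

end

end Claimed.Agent.R166
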