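/-
R166 Abs/KMSExtend (leaf K7).  Extension of the strip functions from a dense subspace to all pairs (A, B) by uniform convergence.
 Pure analysis; `b0 A B t`, `b1 A B t` are the prescribed boundary values (later ω (A τ_t B), ω (τ_t B A)).
PROOF TEXT.  Sbar = {0 ≤ Im z ≤ β}, So = {0 < Im z < β}.  Choose sequences a k → A, b k → B in 𝔇 (hD.closure_eq / mem_closure_iff_seq_limit).
 g k := G (a k) (b k).  By hlip, for z ∈ Sbar: ‖g k z - g j z‖ ≤ ‖a k - a j‖ ‖b k‖ + ‖a j‖ ‖b k - b j‖; convergent sequences are bounded and Cauchy,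
 so g is uniformly Cauchy on Sbar (Metric.uniformCauchySeqOn_iff).  F z := limUnder atTop (fun k => g k z);
 UniformCauchySeqOn.tendstoUniformlyOn_of_tendsto (pointwise limits exist: cauchySeq_tendsto_of_complete).
 ContinuousOn F Sbar: TendstoUniformlyOn.continuousOn.   DifferentiableOn on So (open: isOpen via continuity of im):
 (TendstoUniformlyOn.mono to So).tendstoLocallyUniformlyOn.differentiableOn.
 Bound: ‖g k z‖ ≤ ‖a k‖ ‖b k‖ ≤ M; le_of_tendsto.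
 Boundary values: g k t = b0 (a k) (b k) t → b0 A B t by hb0c (squeeze), uniqueness of limits; the same for b1 at t + I β (its imaginary part is β).
Helper lemmas: prefix `ke_`.
-/
import Mathlib

set_option autoImplicit false
set_option linter.unusedSectionVars false

namespace Claimed.Agent.R166

open Filter Topology

noncomputable section

theorem ke_bdd {𝔄 : Type*} [NormedAddCommGroup 𝔄] {a : ℕ → 𝔄} {A : 𝔄}
    (ha : Tendsto a atTop (𝓝 A)) : ∃ M : ℝ, ∀ k, ‖a k‖ ≤ M := by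
  obtain ⟨M, hM⟩ := ha.norm.bddAbove_range
  exact ⟨M, fun k => hM ⟨k, rfl⟩⟩

theorem ke_bdry {𝔄 : Type*} [NormedAddCommGroup 𝔄] {a b : ℕ → 𝔄} {A B : 𝔄}
    (ha : Tendsto a atTop (𝓝 A)) (hb : Tendsto b atTop (𝓝 B)) (c : 𝔄 → 𝔄 → ℂ)
    (hc : ∀ A A' B B' : 𝔄, ‖c A B - c A' B'‖ ≤ ‖A - A'‖ * ‖B‖ + ‖A'‖ * ‖B - B'‖) :
    Tendsto (fun k => c (a k) (b k)) atTop (𝓝 (c A B)) := by
  rw [tendsto_iff_norm_sub_tendsto_zero]
  have h1 : Tendsto (fun k => ‖a k - A‖ * ‖b k‖ + ‖A‖ * ‖b k - B‖) atTop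
      (𝓝 (0 * ‖B‖ + ‖A‖ * 0)) := by
    refine Tendsto.add (Tendsto.mul ?_ hb.norm) (Tendsto.mul tendsto_const_nhds ?_)
    · exact tendsto_iff_norm_sub_tendsto_zero.mp ha
    · exact tendsto_iff_norm_sub_tendsto_zero.mp hb
  simp only [zero_mul, mul_zero, add_zero] at h1
  exact squeeze_zero (fun k => norm_nonneg _) (fun k => hc _ _ _ _) h1

theorem kms_extend {𝔄 : Type*} [NormedAddCommGroup 𝔄] [NormedSpace ℂ 𝔄] (𝔇 : Submodule ℂ 𝔄)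
    (hD : Dense (𝔇 : Set 𝔄)) {β : ℝ} (hβ : 0 < β) (G : 𝔄 → 𝔄 → ℂ → ℂ)
    (hcont : ∀ A ∈ 𝔇, ∀ B ∈ 𝔇, ContinuousOn (G A B) {z : ℂ | 0 ≤ z.im ∧ z.im ≤ β})
    (hdiff : ∀ A ∈ 𝔇, ∀ B ∈ 𝔇, DifferentiableOn ℂ (G A B) {z : ℂ | 0 < z.im ∧ z.im < β})
    (hbound : ∀ A ∈ 𝔇, ∀ B ∈ 𝔇, ∀ z : ℂ, 0 ≤ z.im → z.im ≤ β → ‖G A B z‖ ≤ ‖A‖ * ‖B‖)
    (hlip : ∀ A ∈ 𝔇, ∀ A' ∈ 𝔇, ∀ B ∈ 𝔇, ∀ B' ∈ 𝔇, ∀ z : ℂ, 0 ≤ z.im → z.im ≤ β →
      ‖G A B z - G A' B' z‖ ≤ ‖A - A'‖ * ‖B‖ + ‖A'‖ * ‖B - B'‖)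
    (b0 b1 : 𝔄 → 𝔄 → ℝ → ℂ)
    (hb0 : ∀ A ∈ 𝔇, ∀ B ∈ 𝔇, ∀ t : ℝ, G A B (t : ℂ) = b0 A B t)
    (hb1 : ∀ A ∈ 𝔇, ∀ B ∈ 𝔇, ∀ t : ℝ, G A B ((t : ℂ) + Complex.I * β) = b1 A B t)
    (hb0c : ∀ A A' B B' : 𝔄, ∀ t : ℝ,
      ‖b0 A B t - b0 A' B' t‖ ≤ ‖A - A'‖ * ‖B‖ + ‖A'‖ * ‖B - B'‖)
    (hb1c : ∀ A A' B B' : 𝔄, ∀ t : ℝ,
      ‖b1 A B t - b1 A' B' t‖ ≤ ‖A - A'‖ * ‖B‖ + ‖A'‖ * ‖B - B'‖)
    (A B : 𝔄) :
    ∃ F : ℂ → ℂ,
      ContinuousOn F {z : ℂ | 0 ≤ z.im ∧ z.im ≤ β} ∧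
      DifferentiableOn ℂ F {z : ℂ | 0 < z.im ∧ z.im < β} ∧
      (∃ C : ℝ, ∀ z : ℂ, 0 ≤ z.im → z.im ≤ β → ‖F z‖ ≤ C) ∧
      (∀ t : ℝ, F (t : ℂ) = b0 A B t) ∧
      (∀ t : ℝ, F ((t : ℂ) + Complex.I * β) = b1 A B t) := by
  classical
  obtain ⟨a, ha𝔇, ha⟩ := mem_closure_iff_seq_limit.mp (hD A)
  obtain ⟨b, hb𝔇, hb⟩ := mem_closure_iff_seq_limit.mp (hD B)
  have ha𝔇' : ∀ k, a k ∈ 𝔇 := ha𝔇
  have hb𝔇' : ∀ k, b k ∈ 𝔇 := hb𝔇
  obtain ⟨Ma, hMa⟩ := ke_bdd ha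
  obtain ⟨Mb, hMb⟩ := ke_bdd hb
  set M : ℝ := max Ma Mb + 1 with hM
  have hMa' : ∀ k, ‖a k‖ ≤ M := fun k => by
    have := hMa k; have := le_max_left Ma Mb; linarith
  have hMb' : ∀ k, ‖b k‖ ≤ M := fun k => by
    have := hMb k; have := le_max_right Ma Mb; linarith
  have hMpos : 0 < M := by
    have h0 := norm_nonneg (a 0); have := hMa 0; have := le_max_left Ma Mb; linarith
  set Sbar : Set ℂ := {z : ℂ | 0 ≤ z.im ∧ z.im ≤ β} with hSbar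
  set So : Set ℂ := {z : ℂ | 0 < z.im ∧ z.im < β} with hSo
  set g : ℕ → ℂ → ℂ := fun k => G (a k) (b k) with hg
  have hUC : UniformCauchySeqOn g atTop Sbar := by
    rw [Metric.uniformCauchySeqOn_iff]
    intro ε hε
    have hε' : 0 < ε / (2 * M) := by positivity
    obtain ⟨Na, hNa⟩ := Metric.cauchySeq_iff.mp ha.cauchySeq _ hε'
    obtain ⟨Nb, hNb⟩ := Metric.cauchySeq_iff.mp hb.cauchySeq _ hε'
    refine ⟨max Na Nb, fun m hm n hn z hz => ?_⟩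
    have h1 := hlip (a m) (ha𝔇' m) (a n) (ha𝔇' n) (b m) (hb𝔇' m) (b n) (hb𝔇' n) z hz.1 hz.2
    have h2 : ‖a m - a n‖ < ε / (2 * M) := by
      rw [← dist_eq_norm]
      exact hNa m (le_trans (le_max_left _ _) hm) n (le_trans (le_max_left _ _) hn)
    have h3 : ‖b m - b n‖ < ε / (2 * M) := by
      rw [← dist_eq_norm]
      exact hNb m (le_trans (le_max_right _ _) hm) n (le_trans (le_max_right _ _) hn)
    have h4 : ‖a m - a n‖ * ‖b m‖ ≤ ‖a m - a n‖ * M :=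
      mul_le_mul_of_nonneg_left (hMb' m) (norm_nonneg _)
    have h5 : ‖a n‖ * ‖b m - b n‖ ≤ M * ‖b m - b n‖ :=
      mul_le_mul_of_nonneg_right (hMa' n) (norm_nonneg _)
    have h6 : ‖a m - a n‖ * M < ε / (2 * M) * M := mul_lt_mul_of_pos_right h2 hMpos
    have h7 : M * ‖b m - b n‖ < M * (ε / (2 * M)) := mul_lt_mul_of_pos_left h3 hMpos
    have h8 : ε / (2 * M) * M + M * (ε / (2 * M)) = ε := by field_simp; ring
    rw [dist_eq_norm]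
    show ‖G (a m) (b m) z - G (a n) (b n) z‖ < ε
    linarith
  set F : ℂ → ℂ := fun z => limUnder atTop (fun k => g k z) with hF
  have hpt : ∀ z ∈ Sbar, Tendsto (fun k => g k z) atTop (𝓝 (F z)) := by
    intro z hz
    have hc : CauchySeq (fun k => g k z) := hUC.cauchy_map hz
    exact hc.tendsto_limUnder
  have hU : TendstoUniformlyOn g F atTop Sbar := hUC.tendstoUniformlyOn_of_tendsto hpt
  have hsub : So ⊆ Sbar := fun z hz => ⟨hz.1.le, hz.2.le⟩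
  have hopen : IsOpen So := by
    have h1 : IsOpen {z : ℂ | 0 < z.im} := isOpen_lt continuous_const Complex.continuous_im
    have h2 : IsOpen {z : ℂ | z.im < β} := isOpen_lt Complex.continuous_im continuous_const
    exact h1.inter h2
  refine ⟨F, ?_, ?_, ⟨M * M, ?_⟩, ?_, ?_⟩
  · exact hU.continuousOn (Eventually.of_forall fun k => hcont _ (ha𝔇' k) _ (hb𝔇' k)).frequently
  · exact (hU.mono hsub).tendstoLocallyUniformlyOn.differentiableOn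
      (Eventually.of_forall fun k => hdiff _ (ha𝔇' k) _ (hb𝔇' k)) hopen
  · intro z h0 h1
    refine le_of_tendsto (hpt z ⟨h0, h1⟩).norm (Eventually.of_forall fun k => ?_)
    calc ‖g k z‖ ≤ ‖a k‖ * ‖b k‖ := hbound _ (ha𝔇' k) _ (hb𝔇' k) z h0 h1
      _ ≤ M * M := mul_le_mul (hMa' k) (hMb' k) (norm_nonneg _) hMpos.le
  · intro t
    have hz : (t : ℂ) ∈ Sbar := by simp [hSbar, hβ.le]
    have h1 := hpt _ hz
    have h2 : Tendsto (fun k => g k (t : ℂ)) atTop (𝓝 (b0 A B t)) := by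
      have := ke_bdry ha hb (fun X Y => b0 X Y t) (fun X X' Y Y' => hb0c X X' Y Y' t)
      refine this.congr fun k => ?_
      exact (hb0 _ (ha𝔇' k) _ (hb𝔇' k) t).symm
    exact tendsto_nhds_unique h1 h2
  · intro t
    have hz : ((t : ℂ) + Complex.I * β) ∈ Sbar := by simp [hSbar, hβ.le]
    have h1 := hpt _ hz
    have h2 : Tendsto (fun k => g k ((t : ℂ) + Complex.I * β)) atTop (𝓝 (b1 A B t)) := by
      have := ke_bdry ha hb (fun X Y => b1 X Y t) (fun X X' Y Y' => hb1c X X' Y Y' t)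
      refine this.congr fun k => ?_
      exact (hb1 _ (ha𝔇' k) _ (hb𝔇' k) t).symm
    exact tendsto_nhds_unique h1 h2

end

end Claimed.Agent.R166
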