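/-
R166 Abs/KMSSetup (leaf K3).  The abstract data of "a limit of finite-volume Gibbs states" + soft consequences.
  φ i : finite-volume states (only linearity and ‖φ i A‖ ≤ ‖A‖ are used), ω = limit along the ultrafilter U,
  K i : finite-volume Hamiltonians, τ t = limit of conjExp (K i) t,   𝔇 : dense subspace of uniformly analytic (local) elements,
  hkms : the finite-volume KMS identity for complex times, eventually in i.
  G A B z := lim_U φ i (A * conjExp (K i) z B).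
PROOF TEXT (all: pass to the limit along U; U is NeBot; tendsto_nhds_unique, le_of_tendsto', Tendsto.sub, Tendsto.norm).
  ω_sub, norm_ω_le: from map_sub (φ i), hφ.       τ_sub, norm_τ: conjExp_sub_right, norm_conjExp_real.
Helper lemmas: prefix `ks_`.
-/
import Claimed.Agent.R166.Abs.Norm

set_option autoImplicit false
set_option linter.unusedSectionVars false

namespace Claimed.Agent.R166

open Filter Topology

noncomputable section

/-- abstract "limit of finite-volume Gibbs states". -/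
structure KMSSetup (𝔄 : Type*) [NormedRing 𝔄] [NormedAlgebra ℂ 𝔄] [StarRing 𝔄] (ι : Type*) where
  U : Ultrafilter ι
  φ : ι → 𝔄 →ₗ[ℂ] ℂ
  hφ : ∀ i A, ‖φ i A‖ ≤ ‖A‖
  ω : 𝔄 → ℂ
  hω : ∀ A, Tendsto (fun i => φ i A) (U : Filter ι) (𝓝 (ω A))
  K : ι → 𝔄
  hK : ∀ i, IsSelfAdjoint (K i)
  τ : ℝ → 𝔄 → 𝔄
  hτ : ∀ (t : ℝ) (B : 𝔄), Tendsto (fun i => conjExp (K i) (t : ℂ) B) (U : Filter ι) (𝓝 (τ t B))
  β : ℝ
  hβ : 0 < β
  𝔇 : Submodule ℂ 𝔄
  hD : Dense (𝔇 : Set 𝔄)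
  r : ℝ
  hr : 0 < r
  hbd : ∀ B ∈ 𝔇, ∃ C : ℝ, ∀ i k, ‖adPow (K i) k B‖ ≤ C * k.factorial * (r⁻¹) ^ k
  hkms : ∀ A ∈ 𝔇, ∀ B ∈ 𝔇, ∀ᶠ i in (U : Filter ι), ∀ z : ℂ,
    φ i (A * conjExp (K i) (z + Complex.I * β) B) = φ i (conjExp (K i) z B * A)

variable {𝔄 : Type*} [NormedRing 𝔄] [NormedAlgebra ℂ 𝔄] [CompleteSpace 𝔄]
  [StarRing 𝔄] [CStarRing 𝔄] [StarModule ℂ 𝔄] {ι : Type*}

/-- the candidate KMS function. -/
def KMSSetup.G (P : KMSSetup 𝔄 ι) (A B : 𝔄) (z : ℂ) : ℂ :=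
  limUnder (P.U : Filter ι) (fun i => P.φ i (A * conjExp (P.K i) z B))

theorem KMSSetup.ω_sub (P : KMSSetup 𝔄 ι) (X Y : 𝔄) : P.ω (X - Y) = P.ω X - P.ω Y := by
  have h1 := P.hω (X - Y)
  have h2 := (P.hω X).sub (P.hω Y)
  simp only [map_sub] at h1
  exact tendsto_nhds_unique h1 h2

theorem KMSSetup.norm_ω_le (P : KMSSetup 𝔄 ι) (X : 𝔄) : ‖P.ω X‖ ≤ ‖X‖ :=
  le_of_tendsto' (P.hω X).norm fun i => P.hφ i X

theorem KMSSetup.τ_sub (P : KMSSetup 𝔄 ι) (t : ℝ) (X Y : 𝔄) :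
    P.τ t (X - Y) = P.τ t X - P.τ t Y := by
  have h1 := P.hτ t (X - Y)
  have h2 := (P.hτ t X).sub (P.hτ t Y)
  simp only [conjExp_sub_right] at h1
  exact tendsto_nhds_unique h1 h2

theorem KMSSetup.norm_τ (P : KMSSetup 𝔄 ι) (t : ℝ) (X : 𝔄) : ‖P.τ t X‖ = ‖X‖ := by
  have h1 := (P.hτ t X).norm
  simp only [norm_conjExp_real (P.hK _)] at h1
  exact tendsto_nhds_unique h1 tendsto_const_nhds

end

end Claimed.Agent.R166
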