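/-
R166 Abs/ThreeLines (leaf K1).  Finite-volume KMS function is bounded by ‖A‖‖B‖ on the closed strip 0 ≤ Im z ≤ β.
PROOF TEXT.  f z := φ (A * conjExp K z B).  φ is a bounded linear functional (LinearMap.mkContinuous φ 1 ..), z ↦ conjExp K z B is
 entire (differentiable_conjExp), so f is entire, in particular DiffContOnCl ℂ f (im ⁻¹' Ioo 0 β) (Differentiable.diffContOnCl).
 On the strip |f z| ≤ ‖A‖ exp(2 β ‖K‖) ‖B‖ (norm_conjExp_le): bounded, so the growth hypothesis of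
 PhragmenLindelof.horizontal_strip holds with c = 0 (0 < π/(β-0)), B = anything:  f =O[_] fun _ => exp(B * exp 0): use
 Asymptotics.IsBigO.of_bound with the constant bound (eventually_inf_principal / Filter.Eventually.of_forall after restricting: the bound
 only holds on the strip, use `Filter.eventually_inf_principal.2 (Eventually.of_forall ..)`).
 Im z = 0: z = (z.re : ℂ), |f z| ≤ ‖A‖ ‖conjExp K z.re B‖ = ‖A‖‖B‖ (norm_conjExp_real, norm_mul_le).
 Im z = β: z = z.re + I β, hypothesis h, the same bound.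
Helper lemmas: prefix `tl_`.
-/
import Claimed.Agent.R166.Abs.Norm

set_option autoImplicit false
set_option linter.unusedSectionVars false

namespace Claimed.Agent.R166

open Filter Topology

noncomputable section

variable {𝔄 : Type*} [NormedRing 𝔄] [NormedAlgebra ℂ 𝔄] [CompleteSpace 𝔄]
  [StarRing 𝔄] [CStarRing 𝔄] [StarModule ℂ 𝔄]

theorem norm_kmsFun_le (φ : 𝔄 →ₗ[ℂ] ℂ) (hφ : ∀ A, ‖φ A‖ ≤ ‖A‖) {K : 𝔄} (hK : IsSelfAdjoint K)
    {β : ℝ} (hβ : 0 < β) (A B : 𝔄)
    (h : ∀ t : ℝ, φ (A * conjExp K ((t : ℂ) + Complex.I * β) B) = φ (conjExp K (t : ℂ) B * A))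
    (z : ℂ) (h0 : 0 ≤ z.im) (h1 : z.im ≤ β) :
    ‖φ (A * conjExp K z B)‖ ≤ ‖A‖ * ‖B‖ := by
  set Φ : 𝔄 →L[ℂ] ℂ := LinearMap.mkContinuous φ 1 (fun a => by simpa using hφ a) with hΦ
  have hΦa : ∀ a, Φ a = φ a := fun a => rfl
  set f : ℂ → ℂ := fun w => Φ (A * conjExp K w B) with hf
  have hdiff : Differentiable ℂ f := by
    have h1 : Differentiable ℂ (fun w : ℂ => A * conjExp K w B) :=
      (differentiable_const A).mul (differentiable_conjExp K B)
    exact Φ.differentiable.comp h1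
  have hbd : ∀ w : ℂ, w ∈ Complex.im ⁻¹' Set.Ioo 0 β →
      ‖f w‖ ≤ ‖A‖ * (Real.exp (2 * β * ‖K‖) * ‖B‖) := by
    intro w hw
    have hw0 : 0 < w.im := hw.1
    have hw1 : w.im < β := hw.2
    calc ‖f w‖ = ‖φ (A * conjExp K w B)‖ := rfl
      _ ≤ ‖A * conjExp K w B‖ := hφ _
      _ ≤ ‖A‖ * ‖conjExp K w B‖ := norm_mul_le _ _
      _ ≤ ‖A‖ * (Real.exp (2 * |w.im| * ‖K‖) * ‖B‖) := by
          gcongr
          exact norm_conjExp_le hK w B
      _ ≤ ‖A‖ * (Real.exp (2 * β * ‖K‖) * ‖B‖) := by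
          have : |w.im| ≤ β := by rw [abs_of_pos hw0]; exact hw1.le
          gcongr
  have key : ‖f z‖ ≤ ‖A‖ * ‖B‖ := by
    refine PhragmenLindelof.horizontal_strip (a := 0) (b := β) hdiff.diffContOnCl
      ⟨0, by rw [sub_zero]; exact div_pos Real.pi_pos hβ, 0, ?_⟩ ?_ ?_ h0 h1
    · refine Asymptotics.IsBigO.of_bound (‖A‖ * (Real.exp (2 * β * ‖K‖) * ‖B‖)) ?_
      refine Filter.eventually_inf_principal.2 (Filter.Eventually.of_forall fun w hw => ?_)
      simpa using hbd w hw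
    · intro w hw
      have hwre : w = (w.re : ℂ) := by
        apply Complex.ext <;> simp [hw]
      calc ‖f w‖ = ‖φ (A * conjExp K w B)‖ := rfl
        _ ≤ ‖A * conjExp K w B‖ := hφ _
        _ ≤ ‖A‖ * ‖conjExp K w B‖ := norm_mul_le _ _
        _ = ‖A‖ * ‖B‖ := by rw [hwre, norm_conjExp_real hK]
    · intro w hw
      have hwre : w = (w.re : ℂ) + Complex.I * β := by
        apply Complex.ext <;> simp [hw]
      calc ‖f w‖ = ‖φ (A * conjExp K w B)‖ := rfl
        _ = ‖φ (conjExp K (w.re : ℂ) B * A)‖ := by rw [hwre, h]; simp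
        _ ≤ ‖conjExp K (w.re : ℂ) B * A‖ := hφ _
        _ ≤ ‖conjExp K (w.re : ℂ) B‖ * ‖A‖ := norm_mul_le _ _
        _ = ‖A‖ * ‖B‖ := by rw [norm_conjExp_real hK, mul_comm]
  exact key

end

end Claimed.Agent.R166
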