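/-
R166 Abs/KMSBound (leaf K4).  Uniform bound of the finite-volume KMS functions on the ENLARGED open strip
   bigStrip β r = { -(r/2) < Im z < β + r/2 }       (A, B in the dense subspace of uniformly analytic elements).
PROOF TEXT.  Take C_B from P.hbd B hB; C := 2 * |C_B| * ‖A‖ + ‖A‖ * ‖B‖ (or max).  Work with i in the eventual set of P.hkms A hA B hB.
  Case |Im z| ≤ r/2:  ‖φ i (A * X)‖ ≤ ‖A‖ ‖X‖ (hφ, norm_mul_le), ‖conjExp (K i) z B‖ ≤ 2 C_B (norm_conjExp_le_of_analytic).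
  Case 0 ≤ Im z ≤ β:  norm_kmsFun_le (hypothesis h := fun t => hkms_i t).
  Case β ≤ Im z < β + r/2:  z = (z - I β) + I β, hkms_i (z - I β):  φ i (A * conjExp z B) = φ i (conjExp (z - Iβ) B * A), |Im (z - Iβ)| ≤ r/2.
Helper lemmas: prefix `kb_`.
-/
import Claimed.Agent.R166.Abs.KMSSetup
import Claimed.Agent.R166.Abs.ThreeLines

set_option autoImplicit false
set_option linter.unusedSectionVars false

namespace Claimed.Agent.R166

open Filter Topology

noncomputable section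

/-- the enlarged open strip. -/
def bigStrip (β r : ℝ) : Set ℂ := {z : ℂ | -(r / 2) < z.im ∧ z.im < β + r / 2}

variable {𝔄 : Type*} [NormedRing 𝔄] [NormedAlgebra ℂ 𝔄] [CompleteSpace 𝔄]
  [StarRing 𝔄] [CStarRing 𝔄] [StarModule ℂ 𝔄] {ι : Type*}

theorem isOpen_bigStrip (β r : ℝ) : IsOpen (bigStrip β r) := by
  have h1 : IsOpen {z : ℂ | -(r / 2) < z.im} := isOpen_lt continuous_const Complex.continuous_im
  have h2 : IsOpen {z : ℂ | z.im < β + r / 2} := isOpen_lt Complex.continuous_im continuous_const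
  exact h1.inter h2

theorem KMSSetup.bound_big (P : KMSSetup 𝔄 ι) {A B : 𝔄} (hA : A ∈ P.𝔇) (hB : B ∈ P.𝔇) :
    ∃ C : ℝ, ∀ᶠ i in (P.U : Filter ι), ∀ z ∈ bigStrip P.β P.r,
      ‖P.φ i (A * conjExp (P.K i) z B)‖ ≤ C := by
  obtain ⟨CB, hCB⟩ := P.hbd B hB
  refine ⟨2 * |CB| * ‖A‖ + ‖A‖ * ‖B‖, ?_⟩
  filter_upwards [P.hkms A hA B hB] with i hi z hz
  obtain ⟨hz1, hz2⟩ := hz
  have hr := P.hr
  have hA0 : 0 ≤ ‖A‖ := norm_nonneg A
  have hB0 : 0 ≤ ‖B‖ := norm_nonneg B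
  have hAB : 0 ≤ ‖A‖ * ‖B‖ := mul_nonneg hA0 hB0
  have hCA : 0 ≤ 2 * |CB| * ‖A‖ := by positivity
  have hsmall : ∀ w : ℂ, |w.im| ≤ P.r / 2 → ‖conjExp (P.K i) w B‖ ≤ 2 * |CB| := by
    intro w hw
    have h := norm_conjExp_le_of_analytic (P.hK i) hr (hCB i) w hw
    have h' : CB ≤ |CB| := le_abs_self CB
    linarith
  by_cases hc1 : z.im ≤ 0
  · -- small imaginary part
    have hw : |z.im| ≤ P.r / 2 := by
      rw [abs_le]; constructor <;> linarith
    calc ‖P.φ i (A * conjExp (P.K i) z B)‖ ≤ ‖A * conjExp (P.K i) z B‖ := P.hφ i _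
      _ ≤ ‖A‖ * ‖conjExp (P.K i) z B‖ := norm_mul_le _ _
      _ ≤ ‖A‖ * (2 * |CB|) := mul_le_mul_of_nonneg_left (hsmall z hw) hA0
      _ ≤ 2 * |CB| * ‖A‖ + ‖A‖ * ‖B‖ := by nlinarith
  · rw [not_le] at hc1
    by_cases hc2 : z.im ≤ P.β
    · have h := norm_kmsFun_le (P.φ i) (P.hφ i) (P.hK i) P.hβ A B (fun t => hi (t : ℂ)) z hc1.le hc2
      linarith
    · rw [not_le] at hc2
      have hzz : z = (z - Complex.I * P.β) + Complex.I * P.β := by ring
      have him : (z - Complex.I * P.β).im = z.im - P.β := by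
        simp
      have hw : |(z - Complex.I * P.β).im| ≤ P.r / 2 := by
        rw [him, abs_le]; constructor <;> linarith
      have h := hi (z - Complex.I * P.β)
      rw [← hzz] at h
      rw [h]
      calc ‖P.φ i (conjExp (P.K i) (z - Complex.I * P.β) B * A)‖
          ≤ ‖conjExp (P.K i) (z - Complex.I * P.β) B * A‖ := P.hφ i _
        _ ≤ ‖conjExp (P.K i) (z - Complex.I * P.β) B‖ * ‖A‖ := norm_mul_le _ _
        _ ≤ (2 * |CB|) * ‖A‖ := mul_le_mul_of_nonneg_right (hsmall _ hw) hA0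
        _ ≤ 2 * |CB| * ‖A‖ + ‖A‖ * ‖B‖ := by linarith

end

end Claimed.Agent.R166
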