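/-
R166 Abs/Normal (leaf K2).  Normal families along an ultrafilter (pure complex analysis, no algebra).
 Uniformly bounded holomorphic functions on an open V ⊆ ℂ: the pointwise limit along an ultrafilter exists and is holomorphic.
PROOF TEXT.  (1) For z ∈ V the values F i z lie eventually in the compact closedBall 0 C: the ultrafilter U.map (F · z) converges
 (IsCompact.ultrafilter_le_nhds (isCompact_closedBall 0 C)); define f z as such a limit (choose; f z = 0 off V).
 (2) Equi-Lipschitz: if closedBall z₀ (2ρ) ⊆ V then for w, w' ∈ ball z₀ ρ:  ‖F i w - F i w'‖ ≤ (C/ρ) ‖w - w'‖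
 (Cauchy estimate Complex.norm_deriv_le_of_forall_mem_sphere_norm_le on spheres of radius ρ around points of ball z₀ ρ, then
 Convex.norm_image_sub_le_of_norm_deriv_le on the ball).
 (3) TendstoLocallyUniformlyOn F f U V: given eps, z₀: cover: take δ = min ρ (eps ρ/(3C+1)); for w ∈ ball z₀ δ:
 ‖F i w - f w‖ ≤ ‖F i w - F i z₀‖ + ‖F i z₀ - f z₀‖ + ‖f z₀ - f w‖; the first is ≤ eps/3 by (2), the third too (pass to the limit in (2):
 le_of_tendsto), the second is eventually < eps/3.  (Metric.tendstoLocallyUniformlyOn_iff.)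
 (4) TendstoLocallyUniformlyOn.differentiableOn (U is NeBot).
Helper lemmas: prefix `nf_`.
-/
import Mathlib

set_option autoImplicit false
set_option linter.unusedSectionVars false

namespace Claimed.Agent.R166

open Filter Topology

noncomputable section

theorem nf_exists_lim {ι : Type*} (U : Ultrafilter ι) (g : ι → ℂ) {C : ℝ}
    (hb : ∀ᶠ i in (U : Filter ι), ‖g i‖ ≤ C) : ∃ l : ℂ, Tendsto g (U : Filter ι) (𝓝 l) := by
  have h := (isCompact_closedBall (0 : ℂ) C).ultrafilter_le_nhds (U.map g) (by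
    rw [Ultrafilter.coe_map, le_principal_iff, mem_map]
    filter_upwards [hb] with i hi
    simpa using hi)
  obtain ⟨l, _, hl⟩ := h
  exact ⟨l, hl⟩

theorem nf_lipschitz {G : ℂ → ℂ} {V : Set ℂ} {C ρ : ℝ} {z₀ : ℂ} (hρ : 0 < ρ)
    (hd : DifferentiableOn ℂ G V) (hb : ∀ z ∈ V, ‖G z‖ ≤ C)
    (hball : Metric.closedBall z₀ (2 * ρ) ⊆ V) {w w' : ℂ}
    (hw : w ∈ Metric.ball z₀ ρ) (hw' : w' ∈ Metric.ball z₀ ρ) :
    ‖G w - G w'‖ ≤ C / ρ * ‖w - w'‖ := by
  have hsub : ∀ c ∈ Metric.ball z₀ ρ, Metric.closedBall c ρ ⊆ V := by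
    intro c hc
    refine subset_trans ?_ hball
    intro y hy
    rw [Metric.mem_closedBall] at hy ⊢
    rw [Metric.mem_ball] at hc
    calc dist y z₀ ≤ dist y c + dist c z₀ := dist_triangle _ _ _
      _ ≤ 2 * ρ := by linarith
  have hdiffAt : ∀ c ∈ Metric.ball z₀ ρ, DifferentiableAt ℂ G c := by
    intro c hc
    have hcV : Metric.closedBall c ρ ∈ 𝓝 c := Metric.closedBall_mem_nhds c hρ
    exact (hd c (hsub c hc (Metric.mem_closedBall_self hρ.le))).differentiableAt
      (mem_of_superset hcV (hsub c hc))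
  have hderiv : ∀ c ∈ Metric.ball z₀ ρ, ‖deriv G c‖ ≤ C / ρ := by
    intro c hc
    apply Complex.norm_deriv_le_of_forall_mem_sphere_norm_le hρ
      (hd.diffContOnCl_ball (hsub c hc))
    intro z hz
    exact hb z (hsub c hc (Metric.sphere_subset_closedBall hz))
  exact Convex.norm_image_sub_le_of_norm_deriv_le hdiffAt hderiv (convex_ball z₀ ρ) hw' hw

theorem exists_differentiableOn_ultralimit {ι : Type*} (U : Ultrafilter ι) (F : ι → ℂ → ℂ)
    {V : Set ℂ} (hV : IsOpen V) {C : ℝ}
    (hd : ∀ᶠ i in (U : Filter ι), DifferentiableOn ℂ (F i) V)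
    (hb : ∀ᶠ i in (U : Filter ι), ∀ z ∈ V, ‖F i z‖ ≤ C) :
    ∃ f : ℂ → ℂ, DifferentiableOn ℂ f V ∧
      ∀ z ∈ V, Tendsto (fun i => F i z) (U : Filter ι) (𝓝 (f z)) := by
  classical
  have hlim : ∀ z : ℂ, ∃ l : ℂ, z ∈ V → Tendsto (fun i => F i z) (U : Filter ι) (𝓝 l) := by
    intro z
    by_cases hz : z ∈ V
    · obtain ⟨l, hl⟩ := nf_exists_lim U (fun i => F i z) (C := C)
        (hb.mono fun i hi => hi z hz)
      exact ⟨l, fun _ => hl⟩
    · exact ⟨0, fun h => absurd h hz⟩
  choose f hf using hlim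
  refine ⟨f, ?_, hf⟩
  -- a positive bound
  set C' : ℝ := |C| + 1 with hC'
  have hC'pos : 0 < C' := by positivity
  have hb' : ∀ᶠ i in (U : Filter ι), ∀ z ∈ V, ‖F i z‖ ≤ C' := by
    filter_upwards [hb] with i hi z hz
    have := hi z hz
    have h2 : C ≤ |C| := le_abs_self C
    linarith
  have hloc : TendstoLocallyUniformlyOn F f (U : Filter ι) V := by
    rw [Metric.tendstoLocallyUniformlyOn_iff]
    intro ε hε z₀ hz₀
    obtain ⟨r, hr, hrV⟩ := Metric.isOpen_iff.1 hV z₀ hz₀
    set ρ : ℝ := r / 4 with hρdef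
    have hρ : 0 < ρ := by positivity
    have hball : Metric.closedBall z₀ (2 * ρ) ⊆ V := by
      refine subset_trans ?_ hrV
      apply Metric.closedBall_subset_ball
      rw [hρdef]; linarith
    set δ : ℝ := min ρ (ε * ρ / (3 * C')) with hδdef
    have hδ : 0 < δ := by
      apply lt_min hρ
      positivity
    have hz₀ball : z₀ ∈ Metric.ball z₀ ρ := Metric.mem_ball_self hρ
    have hsubV : Metric.ball z₀ ρ ⊆ V :=
      subset_trans (subset_trans Metric.ball_subset_closedBall
        (Metric.closedBall_subset_closedBall (by linarith))) hball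
    -- Lipschitz estimate for eventually all i
    have hLip : ∀ᶠ i in (U : Filter ι), ∀ w ∈ Metric.ball z₀ δ, ‖F i w - F i z₀‖ ≤ ε / 3 := by
      filter_upwards [hd, hb'] with i hdi hbi w hw
      have hwρ : w ∈ Metric.ball z₀ ρ := Metric.ball_subset_ball (min_le_left _ _) hw
      have h1 := nf_lipschitz hρ hdi hbi hball hwρ hz₀ball
      have h2 : ‖w - z₀‖ ≤ ε * ρ / (3 * C') := by
        rw [← dist_eq_norm]
        exact (Metric.mem_ball.1 hw).le.trans (min_le_right _ _)
      calc ‖F i w - F i z₀‖ ≤ C' / ρ * ‖w - z₀‖ := h1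
        _ ≤ C' / ρ * (ε * ρ / (3 * C')) := by
            apply mul_le_mul_of_nonneg_left h2
            positivity
        _ = ε / 3 := by
            field_simp
    have hLipf : ∀ w ∈ Metric.ball z₀ δ, ‖f w - f z₀‖ ≤ ε / 3 := by
      intro w hw
      have hwV : w ∈ V := hsubV (Metric.ball_subset_ball (min_le_left _ _) hw)
      have ht : Tendsto (fun i => ‖F i w - F i z₀‖) (U : Filter ι) (𝓝 ‖f w - f z₀‖) :=
        ((hf w hwV).sub (hf z₀ hz₀)).norm
      exact le_of_tendsto ht (hLip.mono fun i hi => hi w hw)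
    have hmid : ∀ᶠ i in (U : Filter ι), ‖F i z₀ - f z₀‖ < ε / 3 := by
      have := (Metric.tendsto_nhds.1 (hf z₀ hz₀)) (ε / 3) (by positivity)
      filter_upwards [this] with i hi
      rwa [← dist_eq_norm]
    refine ⟨Metric.ball z₀ δ, mem_nhdsWithin_of_mem_nhds (Metric.ball_mem_nhds z₀ hδ), ?_⟩
    filter_upwards [hLip, hmid] with i h1 h2 w hw
    have h3 := hLipf w hw
    have h4 := h1 w hw
    rw [dist_eq_norm]
    calc ‖f w - F i w‖ = ‖(f w - f z₀) - (F i z₀ - f z₀) - (F i w - F i z₀)‖ := by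
          congr 1; ring
      _ ≤ ‖f w - f z₀‖ + ‖F i z₀ - f z₀‖ + ‖F i w - F i z₀‖ := by
          refine (norm_sub_le _ _).trans ?_
          gcongr
          exact norm_sub_le _ _
      _ < ε := by linarith
  exact hloc.differentiableOn hd hV

end

end Claimed.Agent.R166
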