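/-
R166 Abs/KMSLocal (leaves K5, K6).  Properties of G A B for A, B in the dense subspace 𝔇.
PROOF TEXT.
 K5: tendsto_G, differentiableOn_G:  apply exists_differentiableOn_ultralimit to F i z = φ i (A * conjExp (K i) z B) on V = bigStrip
   (each F i is entire: φ i is continuous linear (mkContinuous with hφ), differentiable_conjExp, const mul); bound from bound_big.
   The limit f agrees with G on V: Tendsto.limUnder_eq.  DifferentiableOn.congr.
 K6: norm_G_le: le_of_tendsto (tendsto_G .. ).norm with norm_kmsFun_le eventually (hkms).   The closed strip is inside bigStrip (hr, hβ).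
   G_real:  φ i (A * conjExp (K i) t B) = φ i (A * τ t B) + φ i (A * (conjExp (K i) t B - τ t B)); the last term has norm
      ≤ ‖A‖ ‖conjExp (K i) t B - τ t B‖ → 0 (hτ), the first → ω (A * τ t B) (hω); uniqueness of limits with tendsto_G.
   G_top:  eventually φ i (A * conjExp (K i) (t + Iβ) B) = φ i (conjExp (K i) t B * A) (hkms), then as for G_real.
   G_lip:  G A B z - G A' B' z = lim [ φ i ((A - A') * conjExp z B) + φ i (A' * conjExp z (B - B')) ] (sub_mul, mul_sub, conjExp_sub_right,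
      map_add/map_sub), each bounded eventually by norm_kmsFun_le for the pairs (A - A', B), (A', B - B') ∈ 𝔇 × 𝔇 (Submodule.sub_mem).
Helper lemmas: prefix `kl_`.
-/
import Claimed.Agent.R166.Abs.KMSBound
import Claimed.Agent.R166.Abs.Normal

set_option autoImplicit false
set_option linter.unusedSectionVars false

namespace Claimed.Agent.R166

open Filter Topology

noncomputable section

variable {𝔄 : Type*} [NormedRing 𝔄] [NormedAlgebra ℂ 𝔄] [CompleteSpace 𝔄]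
  [StarRing 𝔄] [CStarRing 𝔄] [StarModule ℂ 𝔄] {ι : Type*}

/-- each finite-volume KMS function is entire. -/
theorem kl_differentiable_fun (P : KMSSetup 𝔄 ι) (A B : 𝔄) (i : ι) :
    Differentiable ℂ (fun z : ℂ => P.φ i (A * conjExp (P.K i) z B)) := by
  have hc : ∀ X : 𝔄, ‖P.φ i X‖ ≤ 1 * ‖X‖ := fun X => by rw [one_mul]; exact P.hφ i X
  have h1 : Differentiable ℂ (fun z : ℂ => A * conjExp (P.K i) z B) :=
    (differentiable_const A).mul (differentiable_conjExp (P.K i) B)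
  exact ((P.φ i).mkContinuous 1 hc).differentiable.comp h1

/-- the holomorphic ultralimit on the big strip. -/
theorem kl_exists_limit (P : KMSSetup 𝔄 ι) {A B : 𝔄} (hA : A ∈ P.𝔇) (hB : B ∈ P.𝔇) :
    ∃ f : ℂ → ℂ, DifferentiableOn ℂ f (bigStrip P.β P.r) ∧
      ∀ z ∈ bigStrip P.β P.r,
        Tendsto (fun i => P.φ i (A * conjExp (P.K i) z B)) (P.U : Filter ι) (𝓝 (f z)) := by
  obtain ⟨C, hC⟩ := P.bound_big hA hB
  exact exists_differentiableOn_ultralimit P.U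
    (fun i z => P.φ i (A * conjExp (P.K i) z B)) (isOpen_bigStrip P.β P.r) (C := C)
    (Eventually.of_forall fun i => (kl_differentiable_fun P A B i).differentiableOn) hC

theorem KMSSetup.tendsto_G (P : KMSSetup 𝔄 ι) {A B : 𝔄} (hA : A ∈ P.𝔇) (hB : B ∈ P.𝔇) {z : ℂ}
    (hz : z ∈ bigStrip P.β P.r) :
    Tendsto (fun i => P.φ i (A * conjExp (P.K i) z B)) (P.U : Filter ι) (𝓝 (P.G A B z)) := by
  obtain ⟨f, -, hf⟩ := kl_exists_limit P hA hB
  have h := hf z hz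
  have he : P.G A B z = f z := h.limUnder_eq
  rw [he]
  exact h

theorem KMSSetup.differentiableOn_G (P : KMSSetup 𝔄 ι) {A B : 𝔄} (hA : A ∈ P.𝔇) (hB : B ∈ P.𝔇) :
    DifferentiableOn ℂ (P.G A B) (bigStrip P.β P.r) := by
  obtain ⟨f, hd, hf⟩ := kl_exists_limit P hA hB
  exact hd.congr fun z hz => (hf z hz).limUnder_eq

theorem kl_mem_bigStrip (P : KMSSetup 𝔄 ι) {z : ℂ} (h0 : 0 ≤ z.im) (h1 : z.im ≤ P.β) :
    z ∈ bigStrip P.β P.r := by
  have hr := P.hr
  constructor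
  · linarith
  · linarith

theorem kl_eventually_norm_le (P : KMSSetup 𝔄 ι) {A B : 𝔄} (hA : A ∈ P.𝔇) (hB : B ∈ P.𝔇) {z : ℂ}
    (h0 : 0 ≤ z.im) (h1 : z.im ≤ P.β) :
    ∀ᶠ i in (P.U : Filter ι), ‖P.φ i (A * conjExp (P.K i) z B)‖ ≤ ‖A‖ * ‖B‖ := by
  filter_upwards [P.hkms A hA B hB] with i hi
  exact norm_kmsFun_le (P.φ i) (P.hφ i) (P.hK i) P.hβ A B (fun t => hi t) z h0 h1

/-- `φ i (X i)` converges to `ω X` when `X i → X` in norm. -/
theorem kl_tendsto_φ (P : KMSSetup 𝔄 ι) {X : ι → 𝔄} {Y : 𝔄}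
    (hX : Tendsto X (P.U : Filter ι) (𝓝 Y)) :
    Tendsto (fun i => P.φ i (X i)) (P.U : Filter ι) (𝓝 (P.ω Y)) := by
  have h1 : Tendsto (fun i => P.φ i (X i - Y)) (P.U : Filter ι) (𝓝 0) := by
    apply squeeze_zero_norm (a := fun i => ‖X i - Y‖) (fun i => P.hφ i _)
    have := (hX.sub_const Y).norm
    simpa using this
  have h2 := (P.hω Y).add h1
  simp only [add_zero] at h2
  refine h2.congr (fun i => ?_)
  rw [← map_add]
  congr 1
  abel

theorem KMSSetup.norm_G_le (P : KMSSetup 𝔄 ι) {A B : 𝔄} (hA : A ∈ P.𝔇) (hB : B ∈ P.𝔇) {z : ℂ}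
    (h0 : 0 ≤ z.im) (h1 : z.im ≤ P.β) : ‖P.G A B z‖ ≤ ‖A‖ * ‖B‖ := by
  refine le_of_tendsto (P.tendsto_G hA hB (kl_mem_bigStrip P h0 h1)).norm ?_
  exact kl_eventually_norm_le P hA hB h0 h1

theorem KMSSetup.G_real (P : KMSSetup 𝔄 ι) {A B : 𝔄} (hA : A ∈ P.𝔇) (hB : B ∈ P.𝔇) (t : ℝ) :
    P.G A B (t : ℂ) = P.ω (A * P.τ t B) := by
  have hz : ((t : ℂ)) ∈ bigStrip P.β P.r :=
    kl_mem_bigStrip P (by simp) (by simpa using P.hβ.le)
  have h1 := P.tendsto_G hA hB hz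
  have h2 : Tendsto (fun i => P.φ i (A * conjExp (P.K i) (t : ℂ) B)) (P.U : Filter ι)
      (𝓝 (P.ω (A * P.τ t B))) :=
    kl_tendsto_φ P ((P.hτ t B).const_mul A)
  exact tendsto_nhds_unique h1 h2

theorem KMSSetup.G_top (P : KMSSetup 𝔄 ι) {A B : 𝔄} (hA : A ∈ P.𝔇) (hB : B ∈ P.𝔇) (t : ℝ) :
    P.G A B ((t : ℂ) + Complex.I * P.β) = P.ω (P.τ t B * A) := by
  have hz : ((t : ℂ) + Complex.I * P.β) ∈ bigStrip P.β P.r :=
    kl_mem_bigStrip P (by simpa using P.hβ.le) (by simp)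
  have h1 := P.tendsto_G hA hB hz
  have h2 : Tendsto (fun i => P.φ i (conjExp (P.K i) (t : ℂ) B * A)) (P.U : Filter ι)
      (𝓝 (P.ω (P.τ t B * A))) :=
    kl_tendsto_φ P ((P.hτ t B).mul_const A)
  have h3 : Tendsto (fun i => P.φ i (A * conjExp (P.K i) ((t : ℂ) + Complex.I * P.β) B))
      (P.U : Filter ι) (𝓝 (P.ω (P.τ t B * A))) := by
    refine h2.congr' ?_
    filter_upwards [P.hkms A hA B hB] with i hi
    exact (hi t).symm
  exact tendsto_nhds_unique h1 h3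

theorem KMSSetup.G_lip (P : KMSSetup 𝔄 ι) {A A' B B' : 𝔄} (hA : A ∈ P.𝔇) (hA' : A' ∈ P.𝔇)
    (hB : B ∈ P.𝔇) (hB' : B' ∈ P.𝔇) {z : ℂ} (h0 : 0 ≤ z.im) (h1 : z.im ≤ P.β) :
    ‖P.G A B z - P.G A' B' z‖ ≤ ‖A - A'‖ * ‖B‖ + ‖A'‖ * ‖B - B'‖ := by
  have hz := kl_mem_bigStrip P h0 h1
  have h1' := ((P.tendsto_G hA hB hz).sub (P.tendsto_G hA' hB' hz)).norm
  refine le_of_tendsto h1' ?_
  filter_upwards [kl_eventually_norm_le P (P.𝔇.sub_mem hA hA') hB h0 h1,
    kl_eventually_norm_le P hA' (P.𝔇.sub_mem hB hB') h0 h1] with i hi1 hi2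
  have key : P.φ i (A * conjExp (P.K i) z B) - P.φ i (A' * conjExp (P.K i) z B')
      = P.φ i ((A - A') * conjExp (P.K i) z B) + P.φ i (A' * conjExp (P.K i) z (B - B')) := by
    rw [← map_sub, ← map_add]
    congr 1
    rw [conjExp_sub_right, sub_mul, mul_sub]
    abel
  rw [key]
  exact (norm_add_le _ _).trans (add_le_add hi1 hi2)

end

end Claimed.Agent.R166
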