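/-
R166 Abs/KMS (leaf K8).  Abstract theorem: the limit functional of a KMSSetup satisfies the strip form of the KMS condition
 for ALL pairs A, B (this is literally the body of `IsKMS` of Def_0296).
PROOF TEXT.  Apply kms_extend with G := P.G, b0 A B t := P.ω (A * P.τ t B), b1 A B t := P.ω (P.τ t B * A).
  hcont: differentiableOn_G.continuousOn.mono (closed strip ⊆ bigStrip since 0 < r);   hdiff: differentiableOn_G.mono;
  hbound: norm_G_le; hlip: G_lip; hb0: G_real; hb1: G_top;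
  hb0c:  A τB - A' τB' = (A - A') τB + A' τ(B - B')  (τ_sub), ω_sub, norm_ω_le, norm_mul_le, norm_τ.   hb1c the same with the factors swapped.
Helper lemmas: prefix `km_`.
-/
import Claimed.Agent.R166.Abs.KMSLocal
import Claimed.Agent.R166.Abs.KMSExtend

set_option autoImplicit false
set_option linter.unusedSectionVars false

namespace Claimed.Agent.R166

open Filter Topology

noncomputable section

variable {𝔄 : Type*} [NormedRing 𝔄] [NormedAlgebra ℂ 𝔄] [CompleteSpace 𝔄]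
  [StarRing 𝔄] [CStarRing 𝔄] [StarModule ℂ 𝔄] {ι : Type*}

theorem km_b0c (P : KMSSetup 𝔄 ι) (A A' B B' : 𝔄) (t : ℝ) :
    ‖P.ω (A * P.τ t B) - P.ω (A' * P.τ t B')‖ ≤ ‖A - A'‖ * ‖B‖ + ‖A'‖ * ‖B - B'‖ := by
  have e : A * P.τ t B - A' * P.τ t B' = (A - A') * P.τ t B + A' * P.τ t (B - B') := by
    rw [P.τ_sub]; noncomm_ring
  rw [← P.ω_sub, e]
  calc ‖P.ω ((A - A') * P.τ t B + A' * P.τ t (B - B'))‖
      ≤ ‖(A - A') * P.τ t B + A' * P.τ t (B - B')‖ := P.norm_ω_le _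
    _ ≤ ‖(A - A') * P.τ t B‖ + ‖A' * P.τ t (B - B')‖ := norm_add_le _ _
    _ ≤ ‖A - A'‖ * ‖P.τ t B‖ + ‖A'‖ * ‖P.τ t (B - B')‖ :=
        add_le_add (norm_mul_le _ _) (norm_mul_le _ _)
    _ = ‖A - A'‖ * ‖B‖ + ‖A'‖ * ‖B - B'‖ := by rw [P.norm_τ, P.norm_τ]

theorem km_b1c (P : KMSSetup 𝔄 ι) (A A' B B' : 𝔄) (t : ℝ) :
    ‖P.ω (P.τ t B * A) - P.ω (P.τ t B' * A')‖ ≤ ‖A - A'‖ * ‖B‖ + ‖A'‖ * ‖B - B'‖ := by
  have e : P.τ t B * A - P.τ t B' * A' = P.τ t B * (A - A') + P.τ t (B - B') * A' := by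
    rw [P.τ_sub]; noncomm_ring
  rw [← P.ω_sub, e]
  calc ‖P.ω (P.τ t B * (A - A') + P.τ t (B - B') * A')‖
      ≤ ‖P.τ t B * (A - A') + P.τ t (B - B') * A'‖ := P.norm_ω_le _
    _ ≤ ‖P.τ t B * (A - A')‖ + ‖P.τ t (B - B') * A'‖ := norm_add_le _ _
    _ ≤ ‖P.τ t B‖ * ‖A - A'‖ + ‖P.τ t (B - B')‖ * ‖A'‖ :=
        add_le_add (norm_mul_le _ _) (norm_mul_le _ _)
    _ = ‖A - A'‖ * ‖B‖ + ‖A'‖ * ‖B - B'‖ := by rw [P.norm_τ, P.norm_τ]; ring

theorem KMSSetup.kms (P : KMSSetup 𝔄 ι) (A B : 𝔄) :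
    ∃ F : ℂ → ℂ,
      ContinuousOn F {z : ℂ | 0 ≤ z.im ∧ z.im ≤ P.β} ∧
      DifferentiableOn ℂ F {z : ℂ | 0 < z.im ∧ z.im < P.β} ∧
      (∃ C : ℝ, ∀ z : ℂ, 0 ≤ z.im → z.im ≤ P.β → ‖F z‖ ≤ C) ∧
      (∀ t : ℝ, F (t : ℂ) = P.ω (A * P.τ t B)) ∧
      (∀ t : ℝ, F ((t : ℂ) + Complex.I * P.β) = P.ω (P.τ t B * A)) := by
  have hr := P.hr
  have hsub1 : {z : ℂ | 0 ≤ z.im ∧ z.im ≤ P.β} ⊆ bigStrip P.β P.r := by
    intro z hz
    exact ⟨by have := hz.1; linarith, by have := hz.2; linarith⟩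
  have hsub2 : {z : ℂ | 0 < z.im ∧ z.im < P.β} ⊆ bigStrip P.β P.r := by
    intro z hz
    exact ⟨by have := hz.1; linarith, by have := hz.2; linarith⟩
  exact kms_extend P.𝔇 P.hD P.hβ P.G
    (fun A hA B hB => (P.differentiableOn_G hA hB).continuousOn.mono hsub1)
    (fun A hA B hB => (P.differentiableOn_G hA hB).mono hsub2)
    (fun A hA B hB z h0 h1 => P.norm_G_le hA hB h0 h1)
    (fun A hA A' hA' B hB B' hB' z h0 h1 => P.G_lip hA hA' hB hB' h0 h1)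
    (fun A B t => P.ω (A * P.τ t B)) (fun A B t => P.ω (P.τ t B * A))
    (fun A hA B hB t => P.G_real hA hB t)
    (fun A hA B hB t => P.G_top hA hB t)
    (fun A A' B B' t => km_b0c P A A' B B' t)
    (fun A A' B B' t => km_b1c P A A' B B' t)
    A B

end

end Claimed.Agent.R166
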